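import Vale.Agent.P363.R.B4.PT

/-! B4a, part 3: ground states of `A + lam W`: existence, gap, eigenspace, symmetries. -/

namespace Vale.Agent.P363.R.B4

open Filter Topology
open scoped ComplexConjugate InnerProductSpace

noncomputable section

variable {V H : Type*} [NormedAddCommGroup V] [InnerProductSpace ℂ V]
  [NormedAddCommGroup H] [InnerProductSpace ℂ H]

variable {J : V →L[ℂ] H} {A W B : SForm V} {P V0 : Submodule ℂ V} {E0 g c C w0 g1 : ℝ}

/-- the perturbed form -/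
def pert (A W : SForm V) (lam : ℝ) : SForm V := A + (lam : ℂ) • W

theorem qd_pert (A W : SForm V) (lam : ℝ) (x : V) : qd (pert A W lam) x = qd A x + lam * qd W x := by
  rw [pert, qd_add_form, qd_smul_form]

theorem pert_apply (A W : SForm V) (lam : ℝ) (x y : V) :
    pert A W lam x y = A x y + (lam : ℂ) * W x y := rfl

theorem PT.herm_pert (h : PT J A W P E0 g c C) (lam : ℝ) : Herm (pert A W lam) :=
  h.hA.add (h.hW.real_smul lam)

/-- `x` is a normalised minimiser of `B`. -/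
def IsMin (J : V →L[ℂ] H) (B : SForm V) (x : V) : Prop :=
  ‖J x‖ = 1 ∧ ∀ y, qd B x * ‖J y‖ ^ 2 ≤ qd B y

theorem PT.qd_le_pert (h : PT J A W P E0 g c C) {lam : ℝ} (hl : 0 ≤ lam) (x : V) :
    qd A x ≤ qd (pert A W lam) x := by
  rw [qd_pert]
  have := mul_nonneg hl (h.Wpos x)
  linarith

/-- the quantitative gap with a finite rank correction. -/
theorem PT.gap_proj (h : PT J A W P E0 g c C) [FiniteDimensional ℂ P] :
    ∃ F : V →L[ℂ] (P.map (J : V →ₗ[ℂ] H)), ∀ x,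
      (E0 + g) * ‖J x‖ ^ 2 - g * ‖F x‖ ^ 2 ≤ qd A x ∧ (F x = 0 → ∀ p ∈ P, ⟪J p, J x⟫_ℂ = 0) := by
  set K : Submodule ℂ H := P.map (J : V →ₗ[ℂ] H) with hK
  refine ⟨(K.orthogonalProjectionOnto).comp J, fun x => ?_⟩
  have hmem : (K.orthogonalProjectionOnto (J x) : H) ∈ K := (K.orthogonalProjectionOnto (J x)).2
  obtain ⟨p, hp, hpx⟩ := hmem
  have hpx' : J p = (K.orthogonalProjectionOnto (J x) : H) := hpx
  have hq : ∀ p' ∈ P, ⟪J p', J (x - p)⟫_ℂ = 0 := by
    intro p' hp'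
    have h1 : J x - K.orthogonalProjectionOnto (J x) ∈ Kᗮ := K.sub_starProjection_mem_orthogonal (J x)
    have h2 : J p' ∈ K := ⟨p', hp', rfl⟩
    have h3 := (Submodule.mem_orthogonal K _).1 h1 (J p') h2
    rw [map_sub, hpx']
    exact h3
  have hx : x = p + (x - p) := by abel
  constructor
  · have h1 := h.lower hp hq
    have h2 := norm_J_add_sq (hq p hp)
    rw [← hx] at h1 h2
    have h3 : ‖((K.orthogonalProjectionOnto).comp J) x‖ = ‖J p‖ := by
      rw [hpx']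
      rfl
    rw [h3]
    have h4 : g * ‖J x‖ ^ 2 = g * ‖J p‖ ^ 2 + g * ‖J (x - p)‖ ^ 2 := by rw [h2]; ring
    linarith
  · intro h0 p' hp'
    have h3 : J p = 0 := by
      rw [hpx']
      have : K.orthogonalProjectionOnto (J x) = 0 := h0
      rw [this]
      rfl
    have := hq p' hp'
    rwa [map_sub, h3, sub_zero] at this

/-- Existence of minimisers of `A + lam W`. -/
theorem PT.exists_isMin [CompleteSpace V] (h : PT J A W P E0 g c C) [FiniteDimensional ℂ P]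
    {lam : ℝ} (hl : 0 ≤ lam) {p : V} (hp : p ∈ P) (hn : ‖J p‖ = 1) (hlt : lam * qd W p < g) :
    ∃ x, IsMin J (pert A W lam) x := by
  obtain ⟨F, hF⟩ := h.gap_proj
  refine exists_min (h.herm_pert lam) F (c := c) (C := C) (E' := E0 + g) (K := g) h.hc ?_ h.hg.le
    ?_ p hn ?_
  · intro x
    have := h.coer x
    have := h.qd_le_pert hl x
    linarith
  · intro x
    have := (hF x).1
    have := h.qd_le_pert hl x
    linarith
  · rw [qd_pert, h.qd_eig hp, hn]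
    linarith

theorem PT.isMin_le (h : PT J A W P E0 g c C) {lam : ℝ} {x p : V} (hx : IsMin J (pert A W lam) x)
    (hp : p ∈ P) (hn : ‖J p‖ = 1) : qd (pert A W lam) x ≤ E0 + lam * qd W p := by
  have := hx.2 p
  rw [hn, qd_pert A W lam p, h.qd_eig hp, hn] at this
  linarith

theorem PT.le_isMin (h : PT J A W P E0 g c C) [FiniteDimensional ℂ P] {lam : ℝ} (hl : 0 ≤ lam)
    {x : V} (hx : IsMin J (pert A W lam) x) : E0 ≤ qd (pert A W lam) x := by
  have h1 := h.lower' x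
  rw [hx.1] at h1
  have := h.qd_le_pert hl x
  linarith

theorem exists_lam (K : ℝ) (hK : 0 ≤ K) {ε : ℝ} (hε : 0 < ε) :
    ∃ lam0 > 0, lam0 ≤ 1 ∧ ∀ lam, 0 < lam → lam < lam0 → K * Real.sqrt lam ≤ ε := by
  refine ⟨min 1 ((ε / (K + 1)) ^ 2), by positivity, min_le_left _ _, fun lam hl hl' => ?_⟩
  have h1 : lam ≤ (ε / (K + 1)) ^ 2 := (hl'.trans_le (min_le_right _ _)).le
  have h2 : Real.sqrt lam ≤ ε / (K + 1) := by
    rw [← Real.sqrt_sq (show (0 : ℝ) ≤ ε / (K + 1) by positivity)]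
    exact Real.sqrt_le_sqrt h1
  calc K * Real.sqrt lam ≤ K * (ε / (K + 1)) := mul_le_mul_of_nonneg_left h2 hK
    _ = ε * (K / (K + 1)) := by ring
    _ ≤ ε * 1 := by
        refine mul_le_mul_of_nonneg_left ?_ hε.le
        rw [div_le_one (by positivity)]
        linarith
    _ = ε := mul_one _

/-- **Gap above a nondegenerate ground state.** -/
theorem pt_gap (h : PT J A W P E0 g c C) (h0 : PT0 J W P V0 w0 g1)
    [FiniteDimensional ℂ P] [FiniteDimensional ℂ V0] (v0 : V) (hv0 : V0 = Submodule.span ℂ {v0})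
    (hn : ‖J v0‖ = 1) :
    ∃ lam0 > 0, ∀ lam : ℝ, 0 < lam → lam < lam0 → ∀ x : V, IsMin J (pert A W lam) x →
      ∀ χ : V, ⟪J x, J χ⟫_ℂ = 0 →
        (qd (pert A W lam) x + lam * (g1 / 4)) * ‖J χ‖ ^ 2 ≤ qd (pert A W lam) χ := by
  have hw0 := h0.hw0
  have hg1 := h0.hg1
  have hv0mem : v0 ∈ V0 := by rw [hv0]; exact Submodule.mem_span_singleton_self v0
  obtain ⟨K, hK, HK⟩ := pt_close h h0 w0 hw0
  obtain ⟨K', hK', HK'⟩ := pt_close h h0 (w0 + g1 / 4) (by positivity)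
  obtain ⟨l1, hl1, hl1', H1⟩ := exists_lam K hK (ε := 1 / 8) (by norm_num)
  obtain ⟨l2, hl2, hl2', H2⟩ := exists_lam K' hK' (ε := 1 / 4) (by norm_num)
  refine ⟨min l1 l2, lt_min hl1 hl2, fun lam hl hl' x hx χ hχ => ?_⟩
  have hla : lam < l1 := hl'.trans_le (min_le_left _ _)
  have hlb : lam < l2 := hl'.trans_le (min_le_right _ _)
  have hlam1 : lam ≤ 1 := by linarith
  -- reduce to normalised χ
  by_cases hJ : J χ = 0
  · rw [hJ, norm_zero]
    have h1 := h.coer χ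
    rw [hJ, norm_zero] at h1
    have h2 := h.qd_le_pert hl.le χ
    have h3 : 0 ≤ c * ‖χ‖ ^ 2 := mul_nonneg h.hc.le (by positivity)
    simp only [ne_eq, OfNat.ofNat_ne_zero, not_false_eq_true, zero_pow, mul_zero, add_zero] at h1 ⊢
    linarith
  by_contra hcon
  push Not at hcon
  have hpos : 0 < ‖J χ‖ := norm_pos_iff.2 hJ
  set z : V := ((‖J χ‖⁻¹ : ℝ) : ℂ) • χ with hz
  have hz1 : ‖J z‖ = 1 := by
    rw [hz, map_smul, norm_smul, Complex.norm_real, Real.norm_of_nonneg (by positivity)]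
    exact inv_mul_cancel₀ hpos.ne'
  have hzE : qd (pert A W lam) z < qd (pert A W lam) x + lam * (g1 / 4) := by
    rw [hz, qd_smul, Complex.norm_real, Real.norm_of_nonneg (by positivity)]
    have : ‖J χ‖⁻¹ ^ 2 * qd (pert A W lam) χ <
        ‖J χ‖⁻¹ ^ 2 * ((qd (pert A W lam) x + lam * (g1 / 4)) * ‖J χ‖ ^ 2) :=
      mul_lt_mul_of_pos_left hcon (by positivity)
    have e : ‖J χ‖⁻¹ ^ 2 * ((qd (pert A W lam) x + lam * (g1 / 4)) * ‖J χ‖ ^ 2) =
        qd (pert A W lam) x + lam * (g1 / 4) := by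
      field_simp
    rwa [e] at this
  have hzx : ⟪J x, J z⟫_ℂ = 0 := by
    rw [hz, map_smul, inner_smul_right, hχ, mul_zero]
  have hxE : qd (pert A W lam) x ≤ E0 + lam * w0 := by
    have := h.isMin_le hx (h0.le hv0mem) hn
    rwa [h0.qd_on hv0mem, hn, one_pow, mul_one] at this
  -- decompositions
  obtain ⟨v, hv, r, hxv, hrv, hr⟩ := HK lam hl hlam1 x hx.1 (by rw [← qd_pert]; exact hxE)
  obtain ⟨v', hv', r', hzv, hrv', hr'⟩ := HK' lam hl hlam1 z hz1 (by
    rw [← qd_pert]; linarith)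
  have e1 : ‖J r‖ ^ 2 ≤ 1 / 8 := by
    have := H1 lam hl hla
    rw [sub_self, zero_div] at hr
    linarith
  have e2 : ‖J r'‖ ^ 2 ≤ 1 / 2 := by
    have := H2 lam hl hlb
    have e : (w0 + g1 / 4 - w0) / g1 = 1 / 4 := by field_simp; ring
    rw [e] at hr'
    linarith
  have n1 : ‖J v‖ ^ 2 + ‖J r‖ ^ 2 = 1 := by
    have := norm_J_add_sq (hrv v hv)
    rw [← hxv, hx.1] at this
    linarith
  have n2 : ‖J v'‖ ^ 2 + ‖J r'‖ ^ 2 = 1 := by
    have := norm_J_add_sq (hrv' v' hv')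
    rw [← hzv, hz1] at this
    linarith
  rw [hv0] at hv hv'
  obtain ⟨a, ha⟩ := Submodule.mem_span_singleton.1 hv
  obtain ⟨b, hb⟩ := Submodule.mem_span_singleton.1 hv'
  have na : ‖J v‖ = ‖a‖ := by rw [← ha, map_smul, norm_smul, hn, mul_one]
  have nb : ‖J v'‖ = ‖b‖ := by rw [← hb, map_smul, norm_smul, hn, mul_one]
  have hvv : ⟪J v, J v'⟫_ℂ = conj a * b := by
    rw [← ha, ← hb, map_smul, map_smul, inner_smul_left, inner_smul_right,
      inner_self_eq_norm_sq_to_K, hn]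
    simp
  have hsum : conj a * b + ⟪J r, J r'⟫_ℂ = 0 := by
    have h1 : ⟪J x, J z⟫_ℂ = ⟪J v, J v'⟫_ℂ + ⟪J v, J r'⟫_ℂ + ⟪J r, J v'⟫_ℂ + ⟪J r, J r'⟫_ℂ := by
      rw [hxv, hzv, map_add, map_add, inner_add_left, inner_add_right, inner_add_right]
      ring
    have h2 : ⟪J v, J r'⟫_ℂ = 0 := hrv' v (by rw [hv0]; exact hv)
    have h3 : ⟪J r, J v'⟫_ℂ = 0 := by
      rw [← inner_conj_symm, hrv v' (by rw [hv0]; exact hv'), map_zero]
    rw [h2, h3, hvv, hzx] at h1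
    rw [h1]
    ring
  have hab : ‖a‖ * ‖b‖ ≤ ‖J r‖ * ‖J r'‖ := by
    have h1 : conj a * b = -⟪J r, J r'⟫_ℂ := eq_neg_of_add_eq_zero_left hsum
    have h2 : ‖conj a * b‖ = ‖a‖ * ‖b‖ := by rw [norm_mul, RCLike.norm_conj]
    rw [← h2, h1, norm_neg]
    exact norm_inner_le_norm _ _
  have h1 : ‖a‖ ^ 2 * ‖b‖ ^ 2 ≤ ‖J r‖ ^ 2 * ‖J r'‖ ^ 2 := by
    rw [← mul_pow, ← mul_pow]
    exact pow_le_pow_left₀ (by positivity) hab 2
  rw [na] at n1
  rw [nb] at n2
  have ha2 : 7 / 8 ≤ ‖a‖ ^ 2 := by linarith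
  have hb2 : 1 / 2 ≤ ‖b‖ ^ 2 := by linarith
  have h2 : (7 / 8 : ℝ) * (1 / 2) ≤ ‖a‖ ^ 2 * ‖b‖ ^ 2 :=
    mul_le_mul ha2 hb2 (by norm_num) (by positivity)
  have h3 : ‖J r‖ ^ 2 * ‖J r'‖ ^ 2 ≤ (1 / 8) * (1 / 2) :=
    mul_le_mul e1 e2 (by positivity) (by norm_num)
  linarith

/-! ### eigenspaces -/

/-- the eigenspace of the form `B` for the eigenvalue `E`. -/
def eigS (J : V →L[ℂ] H) (B : SForm V) (E : ℝ) : Submodule ℂ V where
  carrier := {x | ∀ y, B x y = (E : ℂ) * ⟪J x, J y⟫_ℂ}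
  add_mem' := by
    intro x x' hx hx' y
    have e : B (x + x') y = B x y + B x' y := by rw [map_add]; rfl
    rw [e, hx y, hx' y, map_add, inner_add_left, mul_add]
  zero_mem' := by
    intro y
    have e : B 0 y = 0 := by rw [map_zero]; rfl
    rw [e, map_zero, inner_zero_left, mul_zero]
  smul_mem' := by
    intro a x hx y
    have e : B (a • x) y = conj a * B x y := by
      have := form_smul B a 1 x y
      rwa [one_smul, mul_one] at this
    rw [e, hx y, map_smul, inner_smul_left]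
    ring

theorem mem_eigS {E : ℝ} {x : V} : x ∈ eigS J B E ↔ ∀ y, B x y = (E : ℂ) * ⟪J x, J y⟫_ℂ := Iff.rfl

theorem qd_of_mem_eigS {E : ℝ} {x : V} (hx : x ∈ eigS J B E) : qd B x = E * ‖J x‖ ^ 2 := by
  rw [qd, hx x, Complex.re_ofReal_mul]
  congr 1
  exact (norm_sq_eq_re_inner (𝕜 := ℂ) (J x)).symm

theorem IsMin.mem_eigS (hB : Herm B) {x : V} (hx : IsMin J B x) : x ∈ eigS J B (qd B x) := by
  intro y
  set b : SForm V := B + ((-(qd B x) : ℝ) : ℂ) • jForm J with hb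
  have hbH : Herm b := hB.add ((herm_jForm J).real_smul _)
  have hbq : ∀ y, qd b y = qd B y - qd B x * ‖J y‖ ^ 2 := by
    intro y
    rw [hb, qd_add_form, qd_smul_form, qd_jForm]
    ring
  have h1 : b x y = 0 := by
    refine form_eq_zero_of_qd_eq_zero hbH (fun z => ?_) ?_ y
    · rw [hbq]; linarith [hx.2 z]
    · rw [hbq, hx.1]; ring
  have h2 : b x y = B x y + ((-(qd B x) : ℝ) : ℂ) * ⟪J x, J y⟫_ℂ := rfl
  rw [h2] at h1
  push_cast at h1
  linear_combination h1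

theorem isMin_of_mem_eigS {x y : V} (hx : IsMin J B x) (hy : y ∈ eigS J B (qd B x))
    (hn : ‖J y‖ = 1) : IsMin J B y := by
  refine ⟨hn, fun z => ?_⟩
  have : qd B y = qd B x := by rw [qd_of_mem_eigS hy, hn]; ring
  rw [this]
  exact hx.2 z

theorem PT.J_injOn (h : PT J A W P E0 g c C) {lam : ℝ} (hl : 0 ≤ lam) {E : ℝ} {x : V}
    (hx : x ∈ eigS J (pert A W lam) E) (h0 : J x = 0) : x = 0 := by
  have h1 := h.coer x
  have h2 := h.qd_le_pert hl x
  have h3 := qd_of_mem_eigS hx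
  rw [h0, norm_zero] at h1 h3
  simp only [ne_eq, OfNat.ofNat_ne_zero, not_false_eq_true, zero_pow, mul_zero, add_zero] at h1 h3
  have h4 : c * ‖x‖ ^ 2 ≤ 0 := by linarith
  have h5 : ‖x‖ ^ 2 ≤ 0 := by
    by_contra hcon
    push Not at hcon
    have := mul_pos h.hc hcon
    linarith
  have h6 : ‖x‖ = 0 := by nlinarith [norm_nonneg x]
  exact norm_eq_zero.1 h6

theorem PT.finite_eigS (h : PT J A W P E0 g c C) [FiniteDimensional ℂ P] {lam : ℝ} (hl : 0 ≤ lam)
    {E : ℝ} (hE : E < E0 + g) : FiniteDimensional ℂ (eigS J (pert A W lam) E) := by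
  obtain ⟨F, hF⟩ := h.gap_proj
  let L : eigS J (pert A W lam) E →ₗ[ℂ] (P.map (J : V →ₗ[ℂ] H)) :=
    (F : V →ₗ[ℂ] _).comp (Submodule.subtype _)
  have hL : Function.Injective L := by
    rw [injective_iff_map_eq_zero]
    rintro ⟨x, hx⟩ h0
    have h0' : F x = 0 := h0
    have h1 := (hF x).1
    rw [h0', norm_zero] at h1
    have h2 := h.qd_le_pert hl x
    have h3 := qd_of_mem_eigS hx
    have h4 : (E0 + g) * ‖J x‖ ^ 2 ≤ E * ‖J x‖ ^ 2 := by
      rw [← h3]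
      simp only [ne_eq, OfNat.ofNat_ne_zero, not_false_eq_true, zero_pow, mul_zero, sub_zero] at h1
      linarith
    have h5 : ‖J x‖ ^ 2 ≤ 0 := by
      by_contra hcon
      push Not at hcon
      nlinarith
    have h6 : ‖J x‖ = 0 := by nlinarith [norm_nonneg (J x)]
    have h7 : x = 0 := h.J_injOn hl hx (norm_eq_zero.1 h6)
    exact Subtype.ext h7
  exact FiniteDimensional.of_injective L hL

/-! ### symmetries -/

/-- `U` preserves the norm form and the energy form. -/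
structure IsSym (J : V →L[ℂ] H) (B : SForm V) (U : V ≃ₗ[ℂ] V) : Prop where
  inner : ∀ x y, ⟪J (U x), J (U y)⟫_ℂ = ⟪J x, J y⟫_ℂ
  form : ∀ x y, B (U x) (U y) = B x y

theorem IsSym.mem_eigS {U : V ≃ₗ[ℂ] V} (hU : IsSym J B U) {E : ℝ} {x : V}
    (hx : x ∈ eigS J B E) : U x ∈ eigS J B E := by
  intro y
  have h1 : y = U (U.symm y) := (U.apply_symm_apply y).symm
  rw [h1, hU.form, hU.inner]
  exact hx _

theorem IsSym.symm {U : V ≃ₗ[ℂ] V} (hU : IsSym J B U) : IsSym J B U.symm where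
  inner x y := by
    have := hU.inner (U.symm x) (U.symm y)
    simpa using this.symm
  form x y := by
    have := hU.form (U.symm x) (U.symm y)
    simpa using this.symm

/-- `p` is the `J`-orthogonal projection of `x` onto `G`. -/
def IsProj (J : V →L[ℂ] H) (G : Submodule ℂ V) (x p : V) : Prop :=
  p ∈ G ∧ ∀ y ∈ G, ⟪J y, J (x - p)⟫_ℂ = 0

theorem exists_isProj (J : V →L[ℂ] H) (G : Submodule ℂ V) [FiniteDimensional ℂ G] (x : V) :
    ∃ p, IsProj J G x p := by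
  obtain ⟨p, hp, q, hx, hq⟩ := exists_decomp J G x
  refine ⟨p, hp, fun y hy => ?_⟩
  have : x - p = q := by rw [hx]; abel
  rw [this]
  exact hq y hy

theorem IsProj.unique {G : Submodule ℂ V} (hinj : ∀ x ∈ G, J x = 0 → x = 0) {x p p' : V}
    (hp : IsProj J G x p) (hp' : IsProj J G x p') : p = p' := by
  have hmem : p - p' ∈ G := G.sub_mem hp.1 hp'.1
  have h1 := hp.2 _ hmem
  have h2 := hp'.2 _ hmem
  have h3 : ⟪J (p - p'), J (p - p')⟫_ℂ = 0 := by
    have : J (p - p') = J (x - p') - J (x - p) := by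
      rw [← map_sub]; congr 1; abel
    nth_rewrite 2 [this]
    rw [inner_sub_right, h1, h2, sub_zero]
  have h4 : J (p - p') = 0 := inner_self_eq_zero.1 h3
  exact sub_eq_zero.1 (hinj _ hmem h4)

theorem IsProj.add {G : Submodule ℂ V} {x x' p p' : V} (hp : IsProj J G x p)
    (hp' : IsProj J G x' p') : IsProj J G (x + x') (p + p') := by
  refine ⟨G.add_mem hp.1 hp'.1, fun y hy => ?_⟩
  have : x + x' - (p + p') = (x - p) + (x' - p') := by abel
  rw [this, map_add, inner_add_right, hp.2 y hy, hp'.2 y hy, add_zero]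

theorem IsProj.smul {G : Submodule ℂ V} {x p : V} (hp : IsProj J G x p) (a : ℂ) :
    IsProj J G (a • x) (a • p) := by
  refine ⟨G.smul_mem a hp.1, fun y hy => ?_⟩
  rw [← smul_sub, map_smul, inner_smul_right, hp.2 y hy, mul_zero]

theorem IsProj.zero {G : Submodule ℂ V} : IsProj J G (0 : V) 0 :=
  ⟨G.zero_mem, fun y _ => by simp⟩

theorem IsProj.sum {G : Submodule ℂ V} {ι : Type*} (s : Finset ι) {x p : ι → V}
    (hp : ∀ i ∈ s, IsProj J G (x i) (p i)) : IsProj J G (∑ i ∈ s, x i) (∑ i ∈ s, p i) := by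
  classical
  induction s using Finset.induction_on with
  | empty => simpa using IsProj.zero
  | insert a s ha ih =>
    rw [Finset.sum_insert ha, Finset.sum_insert ha]
    exact (hp a (Finset.mem_insert_self _ _)).add
      (ih fun i hi => hp i (Finset.mem_insert_of_mem hi))

theorem IsProj.sym {U : V ≃ₗ[ℂ] V} (hU : IsSym J B U) {E : ℝ} {x p : V}
    (hp : IsProj J (eigS J B E) x p) : IsProj J (eigS J B E) (U x) (U p) := by
  refine ⟨hU.mem_eigS hp.1, fun y hy => ?_⟩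
  have h1 : y = U (U.symm y) := (U.apply_symm_apply y).symm
  rw [h1, ← map_sub, hU.inner]
  exact hp.2 _ (hU.symm.mem_eigS hy)

theorem IsProj.inner_eq {G : Submodule ℂ V} {x p y : V} (hp : IsProj J G x p) (hy : y ∈ G) :
    ⟪J y, J x⟫_ℂ = ⟪J y, J p⟫_ℂ := by
  have := hp.2 y hy
  rw [map_sub, inner_sub_right] at this
  exact sub_eq_zero.1 this

theorem IsProj.inner_eq' {G : Submodule ℂ V} {x p y : V} (hp : IsProj J G x p) (hy : y ∈ G) :
    ⟪J x, J y⟫_ℂ = ⟪J p, J y⟫_ℂ := by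
  rw [← inner_conj_symm, hp.inner_eq hy, inner_conj_symm]

theorem IsProj.inner_self {G : Submodule ℂ V} {x p : V} (hp : IsProj J G x p) :
    ⟪J x, J p⟫_ℂ = (‖J p‖ ^ 2 : ℝ) := by
  rw [hp.inner_eq' hp.1, inner_self_eq_norm_sq_to_K]
  simp

/-- **Closeness with symmetry.** `e i` an orthonormal basis of `V0` adapted to the symmetries; `G`
an eigenspace all of whose unit vectors are close to `V0`.  Then the projections of the `e i` onto
`G` are close to `e i`, pairwise orthogonal to the other `e j`, all with the same norm. -/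
theorem sym_close {ι : Type*} [Fintype ι] [DecidableEq ι] {E : ℝ} {e : ι → V}
    (hV0 : V0 = Submodule.span ℂ (Set.range e))
    (he : ∀ i j, ⟪J (e i), J (e j)⟫_ℂ = if i = j then 1 else 0)
    (hoff : ∀ i j, i ≠ j → ∃ U : V ≃ₗ[ℂ] V, IsSym J B U ∧ ∃ a b : ℂ, U (e i) = a • e i ∧
      U (e j) = b • e j ∧ conj a * b ≠ 1)
    (hdiag : ∀ i j, ∃ U : V ≃ₗ[ℂ] V, IsSym J B U ∧ ∃ a : ℂ, U (e i) = a • e j)
    (hinj : ∀ x ∈ eigS J B E, J x = 0 → x = 0)
    {η : ℝ} (hη : η < 1)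
    (hclose : ∀ x ∈ eigS J B E, ‖J x‖ = 1 → ∃ v ∈ V0, ∃ r, x = v + r ∧
      (∀ v' ∈ V0, ⟪J v', J r⟫_ℂ = 0) ∧ ‖J r‖ ^ 2 ≤ η)
    (hne : ∃ x ∈ eigS J B E, ‖J x‖ = 1)
    {p : ι → V} (hp : ∀ i, IsProj J (eigS J B E) (e i) (p i)) :
    ∃ t : ℝ, 0 < t ∧ 1 - η ≤ t ∧ t ≤ 1 ∧ (∀ i, ‖J (p i)‖ ^ 2 = t) ∧
      ∀ i, ‖J (((Real.sqrt t)⁻¹ : ℂ) • p i - e i)‖ ^ 2 ≤ 2 * η := by
  classical
  -- off-diagonal entries vanish
  have hoff' : ∀ i j, i ≠ j → ⟪J (e i), J (p j)⟫_ℂ = 0 := by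
    intro i j hij
    obtain ⟨U, hU, a, b, ha, hb, hab⟩ := hoff i j hij
    have h1 : IsProj J (eigS J B E) (U (e j)) (U (p j)) := (hp j).sym hU
    have h2 : IsProj J (eigS J B E) (U (e j)) (b • p j) := by
      rw [hb]; exact (hp j).smul b
    have h3 : U (p j) = b • p j := h1.unique hinj h2
    have h4 := hU.inner (e i) (p j)
    rw [ha, h3, map_smul, map_smul, inner_smul_left, inner_smul_right, ← mul_assoc] at h4
    by_contra hcon
    exact hab (mul_right_cancel₀ hcon (by rw [h4, one_mul]))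
  -- equal norms
  have hnorm : ∀ i j, ‖J (p i)‖ = ‖J (p j)‖ := by
    intro i j
    obtain ⟨U, hU, a, ha⟩ := hdiag i j
    have h1 : IsProj J (eigS J B E) (U (e i)) (U (p i)) := (hp i).sym hU
    have h2 : IsProj J (eigS J B E) (U (e i)) (a • p j) := by
      rw [ha]; exact (hp j).smul a
    have h3 : U (p i) = a • p j := h1.unique hinj h2
    have h4 : ‖J (U (p i))‖ ^ 2 = ‖J (p i)‖ ^ 2 := by
      rw [← qd_jForm, ← qd_jForm, qd, qd, jForm_apply, jForm_apply, hU.inner]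
    have h5 : ‖J (U (e i))‖ ^ 2 = ‖J (e i)‖ ^ 2 := by
      rw [← qd_jForm, ← qd_jForm, qd, qd, jForm_apply, jForm_apply, hU.inner]
    have hone : ∀ i, ‖J (e i)‖ ^ 2 = 1 := fun i => by
      rw [← qd_jForm, qd, jForm_apply, he i i]; simp
    rw [ha, map_smul, norm_smul, mul_pow, hone, hone, mul_one] at h5
    rw [h3, map_smul, norm_smul, mul_pow, h5, one_mul] at h4
    exact ((pow_left_inj₀ (norm_nonneg _) (norm_nonneg _) two_ne_zero).1 h4).symm
  have hone : ∀ i, ‖J (e i)‖ ^ 2 = 1 := fun i => by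
    rw [← qd_jForm, qd, jForm_apply, he i i]; simp
  -- Parseval on V0
  have hpars : ∀ v ∈ V0, ∀ r, (∀ v' ∈ V0, ⟪J v', J r⟫_ℂ = 0) →
      ‖J v‖ ^ 2 = ∑ i, ‖⟪J (e i), J (v + r)⟫_ℂ‖ ^ 2 := by
    intro v hv r hr
    have hr' : ∀ i, ⟪J (e i), J (v + r)⟫_ℂ = ⟪J (e i), J v⟫_ℂ := by
      intro i
      have : e i ∈ V0 := by rw [hV0]; exact Submodule.subset_span ⟨i, rfl⟩
      rw [map_add, inner_add_right, hr _ this, add_zero]
    simp only [hr']
    rw [hV0] at hv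
    obtain ⟨a, rfl⟩ := (Submodule.mem_span_range_iff_exists_fun ℂ).1 hv
    have h1 : ∀ i, ⟪J (e i), J (∑ j, a j • e j)⟫_ℂ = a i := by
      intro i
      rw [map_sum, inner_sum]
      simp only [map_smul, inner_smul_right, he]
      simp
    simp only [h1]
    have h2 : (‖J (∑ j, a j • e j)‖ ^ 2 : ℝ) = (⟪J (∑ j, a j • e j), J (∑ j, a j • e j)⟫_ℂ).re := by
      rw [← qd_jForm, qd, jForm_apply]
    rw [h2]
    conv_lhs => rw [map_sum, sum_inner]
    simp only [← map_sum]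
    simp only [map_smul, inner_smul_left]
    have h3 : ∀ i, ⟪J (e i), ∑ j, J (a j • e j)⟫_ℂ = a i := by
      intro i; rw [← map_sum]; exact h1 i
    have h4 : ∀ i, ⟪J (e i), ∑ j, a j • J (e j)⟫_ℂ = a i := by
      intro i
      have := h3 i
      simpa only [map_smul] using this
    rw [Complex.re_sum]
    refine Finset.sum_congr rfl fun i _ => ?_
    have h5 : (⟪J (e i), J (∑ x, a x • e x)⟫_ℂ) = a i := h1 i
    first
      | rw [h4 i, ← Complex.normSq_eq_conj_mul_self, Complex.ofReal_re, Complex.normSq_eq_norm_sq]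
      | rw [h5, ← Complex.normSq_eq_conj_mul_self, Complex.ofReal_re, Complex.normSq_eq_norm_sq]
  -- the common value
  obtain ⟨x, hxm, hx1⟩ := hne
  obtain ⟨v, hv, r, hxv, hr, hrη⟩ := hclose x hxm hx1
  have hvη : 1 - η ≤ ‖J v‖ ^ 2 := by
    have := norm_J_add_sq (hr v hv)
    rw [← hxv, hx1] at this
    linarith
  have hsum1 := hpars v hv r hr
  rw [← hxv] at hsum1
  have hle : ∀ i, ‖⟪J (e i), J x⟫_ℂ‖ ^ 2 ≤ ‖J (p i)‖ ^ 2 := by
    intro i
    rw [(hp i).inner_eq' hxm]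
    have := norm_inner_le_norm (𝕜 := ℂ) (J (p i)) (J x)
    rw [hx1, mul_one] at this
    exact pow_le_pow_left₀ (norm_nonneg _) this 2
  have hpos : ∃ i, 0 < ‖J (p i)‖ ^ 2 := by
    by_contra hcon
    push Not at hcon
    have : ∑ i, ‖⟪J (e i), J x⟫_ℂ‖ ^ 2 ≤ 0 :=
      Finset.sum_nonpos fun i _ => (hle i).trans (hcon i)
    linarith
  obtain ⟨i0, hi0⟩ := hpos
  set t : ℝ := ‖J (p i0)‖ ^ 2 with ht
  have htall : ∀ i, ‖J (p i)‖ ^ 2 = t := fun i => by rw [hnorm i i0]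
  have hst : 0 < Real.sqrt t := Real.sqrt_pos.2 hi0
  have hstt : Real.sqrt t ^ 2 = t := Real.sq_sqrt hi0.le
  have hdiag' : ∀ i, ⟪J (e i), J (p i)⟫_ℂ = (t : ℂ) := fun i => by
    rw [(hp i).inner_self, htall i]
  -- t ≥ 1 - η
  have ht1 : 1 - η ≤ t := by
    have hy : ((Real.sqrt t)⁻¹ : ℂ) • p i0 ∈ eigS J B E := Submodule.smul_mem _ _ (hp i0).1
    have hyn : ‖J (((Real.sqrt t)⁻¹ : ℂ) • p i0)‖ = 1 := by
      rw [map_smul, norm_smul, norm_inv, Complex.norm_real, Real.norm_of_nonneg hst.le]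
      have : ‖J (p i0)‖ = Real.sqrt t := by rw [ht, Real.sqrt_sq (norm_nonneg _)]
      rw [this]
      exact inv_mul_cancel₀ hst.ne'
    obtain ⟨v', hv', r', hyv, hr', hrη'⟩ := hclose _ hy hyn
    have h1 := norm_J_add_sq (hr' v' hv')
    rw [← hyv, hyn] at h1
    have h2 := hpars v' hv' r' hr'
    rw [← hyv] at h2
    have h3 : ∑ i, ‖⟪J (e i), J (((Real.sqrt t)⁻¹ : ℂ) • p i0)⟫_ℂ‖ ^ 2 = t := by
      rw [Finset.sum_eq_single i0]
      · rw [map_smul, inner_smul_right, hdiag' i0, norm_mul, norm_inv, Complex.norm_real,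
          Complex.norm_real, Real.norm_of_nonneg hst.le, Real.norm_of_nonneg hi0.le, mul_pow,
          inv_pow, hstt]
        field_simp
      · intro j _ hj
        rw [map_smul, inner_smul_right, hoff' j i0 hj, mul_zero, norm_zero]
        simp
      · intro h
        exact absurd (Finset.mem_univ i0) h
    linarith
  have ht2 : t ≤ 1 := by
    have h1 := norm_inner_le_norm (𝕜 := ℂ) (J (e i0)) (J (p i0))
    rw [hdiag' i0, Complex.norm_real, Real.norm_of_nonneg hi0.le] at h1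
    have h2 : ‖J (e i0)‖ = 1 := by
      have := hone i0
      nlinarith [norm_nonneg (J (e i0))]
    have h3 : ‖J (p i0)‖ = Real.sqrt t := by rw [ht, Real.sqrt_sq (norm_nonneg _)]
    rw [h2, h3, one_mul] at h1
    nlinarith
  refine ⟨t, hi0, ht1, ht2, htall, fun i => ?_⟩
  have e1 := qd_sub (herm_jForm J) (((Real.sqrt t)⁻¹ : ℂ) • p i) (e i)
  rw [qd_jForm, qd_jForm, qd_jForm, jForm_apply, hone i] at e1
  have e2 : ‖J (((Real.sqrt t)⁻¹ : ℂ) • p i)‖ ^ 2 = 1 := by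
    rw [map_smul, norm_smul, mul_pow, htall i, norm_inv, Complex.norm_real,
      Real.norm_of_nonneg hst.le, inv_pow, hstt]
    exact inv_mul_cancel₀ hi0.ne'
  have e3 : (⟪J (((Real.sqrt t)⁻¹ : ℂ) • p i), J (e i)⟫_ℂ).re = Real.sqrt t := by
    have h1 : ⟪J (p i), J (e i)⟫_ℂ = (t : ℂ) := by
      rw [← inner_conj_symm, hdiag' i, Complex.conj_ofReal]
    rw [map_smul, inner_smul_left, h1]
    have : conj ((Real.sqrt t)⁻¹ : ℂ) * (t : ℂ) = ((Real.sqrt t : ℝ) : ℂ) := by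
      rw [← Complex.ofReal_inv, Complex.conj_ofReal, ← Complex.ofReal_mul]
      congr 1
      rw [← hstt]
      field_simp
      rw [Real.sqrt_sq hst.le]
    rw [this, Complex.ofReal_re]
  rw [e2, e3] at e1
  rw [e1]
  have : t ≤ Real.sqrt t := by
    have : Real.sqrt t ≤ 1 := Real.sqrt_le_one.2 ht2
    nlinarith
  linarith

end

end Vale.Agent.P363.R.B4
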