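import Vale.Agent.P363.R.B4.Hyp

/-! B4: the assembly of `Top.b4` from its hypotheses. -/

namespace Vale.Agent.P363.R.B4

open Filter Topology MeasureTheory
open Vale.Agent.P363.Stmt Vale.Agent.P363.H382 Vale.Agent.P363.R.Top Vale.Agent.P363.H868
open scoped ComplexConjugate InnerProductSpace

noncomputable section

section abs

variable {V H : Type*} [NormedAddCommGroup V] [InnerProductSpace ℂ V]
  [NormedAddCommGroup H] [InnerProductSpace ℂ H]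
variable {J : V →L[ℂ] H} {B : SForm V}

theorem norm_sub_sq_J (x y : V) (hx : ‖J x‖ = 1) (hy : ‖J y‖ = 1) :
    ‖J (x - y)‖ ^ 2 = 2 - 2 * (⟪J x, J y⟫_ℂ).re := by
  have e1 := qd_sub (herm_jForm J) x y
  rw [qd_jForm, qd_jForm, qd_jForm, jForm_apply, hx, hy] at e1
  rw [e1]; ring

/-- choice of the phase -/
theorem exists_phase {Φ0 x v r : V} (hΦ : ‖J Φ0‖ = 1) (hx : ‖J x‖ = 1)
    (hv : v ∈ Submodule.span ℂ {Φ0}) (hxv : x = v + r)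
    (ho : ∀ v' ∈ Submodule.span ℂ {Φ0}, ⟪J v', J r⟫_ℂ = 0) {ε : ℝ} (hr : ‖J r‖ ^ 2 ≤ ε)
    (hε : ε < 1) :
    ⟪J Φ0, J x⟫_ℂ ≠ 0 ∧ ∃ u : ℂ, ‖u‖ = 1 ∧ ‖J (u • x - Φ0)‖ ^ 2 ≤ 2 * ε := by
  obtain ⟨a, ha⟩ := Submodule.mem_span_singleton.1 hv
  have h1 : ⟪J Φ0, J x⟫_ℂ = a := by
    rw [hxv, map_add, inner_add_right, ho Φ0 (Submodule.mem_span_singleton_self _), ← ha, map_smul,
      inner_smul_right, inner_self_eq_norm_sq_to_K, hΦ]
    simp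
  have h2 := norm_J_add_sq (ho v hv)
  rw [← hxv, hx, ← ha, map_smul, norm_smul, hΦ, mul_one] at h2
  have h3 : 1 - ε ≤ ‖a‖ ^ 2 := by linarith
  have h4 : ‖a‖ ≤ 1 := by nlinarith [sq_nonneg ‖J r‖, norm_nonneg a]
  have h5 : 0 < ‖a‖ := by
    rcases (norm_nonneg a).eq_or_lt with h | h
    · rw [← h] at h3; norm_num at h3; linarith
    · exact h
  have ha0 : a ≠ 0 := norm_pos_iff.1 h5
  refine ⟨by rw [h1]; exact ha0, conj a / (‖a‖ : ℂ), ?_, ?_⟩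
  · rw [norm_div, RCLike.norm_conj, Complex.norm_real, norm_norm]
    exact div_self h5.ne'
  · have hun : ‖conj a / (‖a‖ : ℂ)‖ = 1 := by
      rw [norm_div, RCLike.norm_conj, Complex.norm_real, norm_norm]
      exact div_self h5.ne'
    have hux : ‖J ((conj a / (‖a‖ : ℂ)) • x)‖ = 1 := by
      rw [map_smul, norm_smul, hun, hx, one_mul]
    rw [norm_sub_sq_J _ _ hux hΦ]
    have h6 : ⟪J ((conj a / (‖a‖ : ℂ)) • x), J Φ0⟫_ℂ = ((‖a‖ : ℝ) : ℂ) := by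
      rw [map_smul, inner_smul_left, ← inner_conj_symm, h1, map_div₀, Complex.conj_conj,
        Complex.conj_ofReal, div_mul_eq_mul_div, Complex.mul_conj, Complex.normSq_eq_norm_sq]
      push_cast
      have : (‖a‖ : ℂ) ≠ 0 := by exact_mod_cast h5.ne'
      field_simp
    rw [h6, Complex.ofReal_re]
    nlinarith

/-- a nondegenerate ground state has the symmetry type of its unperturbed limit. -/
theorem sym_of_gap (hB : Herm B) {U : V ≃ₗ[ℂ] V} (hU : IsSym J B U) {Φ0 x : V} {c : ℂ}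
    (hΦ : ‖J Φ0‖ = 1) (hUΦ : U Φ0 = c • Φ0) (hx : IsMin J B x) (hne : ⟪J Φ0, J x⟫_ℂ ≠ 0)
    {δ : ℝ} (hδ : 0 < δ)
    (hgap : ∀ χ : V, ⟪J x, J χ⟫_ℂ = 0 → (qd B x + δ) * ‖J χ‖ ^ 2 ≤ qd B χ)
    (hinj : ∀ y ∈ eigS J B (qd B x), J y = 0 → y = 0) : U x = c • x := by
  have hxe := hx.mem_eigS hB
  set d : ℂ := ⟪J x, J (U x)⟫_ℂ with hd
  have hy : U x - d • x ∈ eigS J B (qd B x) :=
    Submodule.sub_mem _ (hU.mem_eigS hxe) (Submodule.smul_mem _ _ hxe)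
  have hyo : ⟪J x, J (U x - d • x)⟫_ℂ = 0 := by
    rw [map_sub, map_smul, inner_sub_right, inner_smul_right, inner_self_eq_norm_sq_to_K, hx.1]
    simp [hd]
  have h1 := hgap _ hyo
  rw [qd_of_mem_eigS hy] at h1
  have h2 : ‖J (U x - d • x)‖ ^ 2 ≤ 0 := by nlinarith [sq_nonneg ‖J (U x - d • x)‖]
  have h3 : J (U x - d • x) = 0 := by
    have : ‖J (U x - d • x)‖ = 0 := by nlinarith [norm_nonneg (J (U x - d • x))]
    exact norm_eq_zero.1 this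
  have h4 : U x = d • x := sub_eq_zero.1 (hinj _ hy h3)
  have h5 := hU.inner Φ0 x
  rw [hUΦ, h4, map_smul, map_smul, inner_smul_left, inner_smul_right, ← mul_assoc] at h5
  have h6 : conj c * d = 1 := mul_right_cancel₀ hne (by rw [h5, one_mul])
  have h7 : ‖c‖ = 1 := by
    have h8 := hU.inner Φ0 Φ0
    have h9 : ‖J (U Φ0)‖ ^ 2 = ‖J Φ0‖ ^ 2 := by
      rw [← qd_jForm, ← qd_jForm, qd, qd, jForm_apply, jForm_apply, h8]
    rw [hUΦ, map_smul, norm_smul, hΦ, mul_one, one_pow] at h9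
    nlinarith [norm_nonneg c]
  have h8 : c * conj c = 1 := by
    rw [Complex.mul_conj, Complex.normSq_eq_norm_sq, h7]; norm_num
  have h9 : d = c := by
    calc d = (c * conj c) * d := by rw [h8, one_mul]
      _ = c * (conj c * d) := by ring
      _ = c := by rw [h6, mul_one]
  rw [h4, h9]

end abs

/-- Facts on the Dyson amplitude. -/
structure DysHyp : Prop where
  mem : ∀ (Φ : ElectronState 4) (Ψ : ElectronState 5) (σ : Fin 2), MemLp (dyson Φ Ψ σ) 2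
  lip : ∀ (Φ Φ' : ElectronState 4) (Ψ Ψ' : ElectronState 5) (σ : Fin 2),
    ∫ x, ‖dyson Φ Ψ σ x - dyson Φ' Ψ' σ x‖ ^ 2 ≤
      2 * (distSq Φ Φ' * normSq Ψ + normSq Φ' * distSq Ψ Ψ')
  congr : ∀ (Φ Φ' : ElectronState 4) (Ψ Ψ' : ElectronState 5) (σ : Fin 2),
    (∀ s, Φ.amp s =ᵐ[volume] Φ'.amp s) → (∀ s, Ψ.amp s =ᵐ[volume] Ψ'.amp s) →
    dyson Φ Ψ σ =ᵐ[volume] dyson Φ' Ψ' σ
  sum : ∀ (Φ : ElectronState 4) {ι : Type} [Fintype ι] (a : ι → ℂ) (y : ι → FS 5) (σ : Fin 2),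
    dyson Φ (ofFS (∑ i, a i • y i)) σ =ᵐ[volume] fun x => ∑ i, a i * dyson Φ (ofFS (y i)) σ x

/-- A family of symmetries realised on the bundled space. -/
structure Real (N : ℕ) (U : FS N ≃ₗ[ℂ] FS N) (f : ElectronState N → ElectronState N) : Prop where
  eq : ∀ x, U x = toFS (f (ofFS x))
  norm : ∀ Ψ, normSq (f Ψ) = normSq Ψ
  en : ∀ lam Ψ, energy (pot lam) (f Ψ) = energy (pot lam) Ψ

theorem Real.isSym {N : ℕ} {U : FS N ≃ₗ[ℂ] FS N} {f : ElectronState N → ElectronState N}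
    (hf : Real N U f) {A W : SForm (FS N)} {lam : ℝ} (hB : Herm (pert A W lam))
    (hen : ∀ Ψ, energy (pot lam) Ψ = qd (pert A W lam) (toFS Ψ)) :
    IsSym (jN N) (pert A W lam) U := by
  refine isSym_of_qd hB U (fun x => ?_) fun x => ?_
  · have h1 : ‖jN N (U x)‖ ^ 2 = ‖jN N x‖ ^ 2 := by
      rw [hf.eq, norm_jN_sq, hf.norm, normSq_ofFS]
    exact (pow_left_inj₀ (norm_nonneg _) (norm_nonneg _) two_ne_zero).1 h1
  · rw [hf.eq, ← hen, hf.en, hen, toFS_ofFS]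

/-! ### coordinate isometries -/

/-- permutation of the coordinates: `(permIso π v) k = v (π k)`. -/
def permIso (π : Equiv.Perm (Fin 3)) : R3 ≃ₗᵢ[ℝ] R3 :=
  LinearIsometryEquiv.piLpCongrLeft 2 ℝ ℝ π.symm

theorem permIso_apply (π : Equiv.Perm (Fin 3)) (v : R3) (k : Fin 3) :
    permIso π v k = v (π k) := by
  simp [permIso, LinearIsometryEquiv.piLpCongrLeft_apply, Equiv.piCongrLeft']

theorem mat_permIso (π : Equiv.Perm (Fin 3)) (j k : Fin 3) :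
    mat (permIso π) j k = if k = π j then 1 else 0 := by
  rw [mat, permIso_apply, e3]
  simp [eq_comm]

/-- change of sign of the coordinate `i`. -/
def signIso (i : Fin 3) : R3 ≃ₗᵢ[ℝ] R3 :=
  LinearIsometryEquiv.piLpCongrRight 2
    (fun k : Fin 3 => if k = i then LinearIsometryEquiv.neg ℝ else LinearIsometryEquiv.refl ℝ ℝ)

theorem signIso_apply (i : Fin 3) (v : R3) (k : Fin 3) :
    signIso i v k = if k = i then - v k else v k := by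
  simp only [signIso, LinearIsometryEquiv.piLpCongrRight_apply]
  split_ifs with h <;> simp [h]

theorem mat_signIso (i j k : Fin 3) :
    mat (signIso i) j k = if k = j then (if j = i then -1 else 1) else 0 := by
  rw [mat, signIso_apply, e3]
  by_cases h : k = j
  · subst h; simp
  · have : j ≠ k := fun h' => h h'.symm
    simp [h, this]


theorem sum_mat_signIso {M : Type*} [AddCommGroup M] [Module ℂ M] (i j : Fin 3) (f : Fin 3 → M) :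
    ∑ k, (mat (signIso i) j k : ℂ) • f k = (if j = i then -1 else 1 : ℂ) • f j := by
  rw [Finset.sum_eq_single j]
  · rw [mat_signIso, if_pos rfl]
    split_ifs <;> simp
  · intro k _ hk
    rw [mat_signIso, if_neg hk]
    simp
  · intro h; exact absurd (Finset.mem_univ j) h

theorem sum_mat_permIso {M : Type*} [AddCommGroup M] [Module ℂ M] (π : Equiv.Perm (Fin 3))
    (j : Fin 3) (f : Fin 3 → M) :
    ∑ k, (mat (permIso π) j k : ℂ) • f k = f (π j) := by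
  rw [Finset.sum_eq_single (π j)]
  · rw [mat_permIso, if_pos rfl]
    simp
  · intro k _ hk
    rw [mat_permIso, if_neg hk]
    simp
  · intro h; exact absurd (Finset.mem_univ _) h

/-- The symmetries and their action on the unperturbed states. -/
structure SymHyp (Φ0 : FS 4) (e : Fin 3 × Fin 2 → FS 5) : Prop where
  rot4 : ∀ A : R3 ≃ₗᵢ[ℝ] R3, ∃ U : FS 4 ≃ₗ[ℂ] FS 4, Real 4 U (rot A) ∧ U Φ0 = Φ0
  rot5 : ∀ A : R3 ≃ₗᵢ[ℝ] R3, ∃ U : FS 5 ≃ₗ[ℂ] FS 5, Real 5 U (rot A) ∧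
    ∀ j s, U (e (j, s)) = ∑ i, (mat A j i : ℂ) • e (i, s)
  flip5 : ∃ (U : FS 5 ≃ₗ[ℂ] FS 5) (f : ElectronState 5 → ElectronState 5), Real 5 U f ∧
    ∀ j, (∃ a : ℂ, U (e (j, 0)) = a • e (j, 1)) ∧ ∃ a : ℂ, U (e (j, 1)) = a • e (j, 0)
  mul : ∃ (U4 : FS 4 ≃ₗ[ℂ] FS 4) (U5 : FS 5 ≃ₗ[ℂ] FS 5) (f4 : ElectronState 4 → ElectronState 4)
    (f5 : ElectronState 5 → ElectronState 5), Real 4 U4 f4 ∧ Real 5 U5 f5 ∧ U4 Φ0 = Φ0 ∧
      (∀ j, U5 (e (j, 0)) = e (j, 0)) ∧ (∀ j, U5 (e (j, 1)) = (-1 : ℂ) • e (j, 1)) ∧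
      ∀ Φ Ψ x, dyson (f4 Φ) (f5 Ψ) 1 x = - dyson Φ Ψ 1 x

/-- The ion ground state. -/
structure IonState (A4 W4 : SForm (FS 4)) (Φ0 : FS 4) (lam ε : ℝ) (y : FS 4) : Prop where
  min : IsMin (jN 4) (pert A4 W4 lam) y
  lo : -5 / 4 ≤ qd (pert A4 W4 lam) y
  hi : qd (pert A4 W4 lam) y ≤ -5 / 4 + ε
  close : ‖jN 4 (y - Φ0)‖ ^ 2 ≤ 2 * ε
  gap : ∃ δ > 0, ∀ χ : FS 4, ⟪jN 4 y, jN 4 χ⟫_ℂ = 0 →
      (qd (pert A4 W4 lam) y + δ) * ‖jN 4 χ‖ ^ 2 ≤ qd (pert A4 W4 lam) χ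
  sym : ∀ (U : FS 4 ≃ₗ[ℂ] FS 4) (f : ElectronState 4 → ElectronState 4), Real 4 U f →
      U Φ0 = Φ0 → U y = y

theorem exists_ionState {A4 W4 : SForm (FS 4)} {P4 : Submodule ℂ (FS 4)} {Φ0 : FS 4}
    {w4 g4 h4 c4 C4 : ℝ}
    (H4 : Hyp 4 A4 W4 P4 (fun _ : Unit => Φ0) (-5 / 4) w4 g4 h4 c4 C4) {ε : ℝ} (hε : 0 < ε)
    (hε1 : ε < 1) :
    ∃ lam0 > 0, ∀ lam, 0 < lam → lam < lam0 → ∃ y, IonState A4 W4 Φ0 lam ε y := by
  have := H4.fin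
  have hspan : Submodule.span ℂ (Set.range (fun _ : Unit => Φ0)) = Submodule.span ℂ {Φ0} := by
    rw [Set.range_const]
  obtain ⟨l1, hl1, G1⟩ := H4.main hε
  have hfin4 : FiniteDimensional ℂ (Submodule.span ℂ (Set.range (fun _ : Unit => Φ0))) :=
    FiniteDimensional.span_of_finite ℂ (Set.finite_range _)
  obtain ⟨l3, hl3, G3⟩ := pt_gap H4.pt H4.pt0 Φ0 hspan (H4.norm_e ())
  refine ⟨min l1 l3, lt_min hl1 hl3, fun lam hl hl' => ?_⟩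
  have a1 : lam < l1 := hl'.trans_le (min_le_left _ _)
  have a3 : lam < l3 := hl'.trans_le (min_le_right _ _)
  obtain ⟨⟨x4, hx4⟩, Q4⟩ := G1 lam hl a1
  obtain ⟨q1, q2, -, v4, hv4, r4, hxv4, ho4, hr4⟩ := Q4 x4 hx4
  rw [hspan] at hv4 ho4
  have hB4 := H4.pt.herm_pert lam
  obtain ⟨hne4, u, hu1, hu2⟩ := exists_phase (H4.norm_e ()) hx4.1 hv4 hxv4 ho4 hr4 hε1
  have hgap4 := G3 lam hl a3 x4 hx4
  have hδ : 0 < lam * (h4 / 4) := by
    have := H4.hg1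
    positivity
  have hqy4 : qd (pert A4 W4 lam) (u • x4) = qd (pert A4 W4 lam) x4 := by
    rw [qd_smul, hu1]; ring
  have hJy4 : ‖jN 4 (u • x4)‖ = 1 := by
    rw [map_smul, norm_smul, hu1, hx4.1, mul_one]
  have hy4min : IsMin (jN 4) (pert A4 W4 lam) (u • x4) := ⟨hJy4, fun z => by
    rw [hqy4]; exact hx4.2 z⟩
  have hu0 : u ≠ 0 := by
    intro h; rw [h, norm_zero] at hu1; norm_num at hu1
  have hne4' : ⟪jN 4 Φ0, jN 4 (u • x4)⟫_ℂ ≠ 0 := by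
    rw [map_smul, inner_smul_right]
    exact mul_ne_zero hu0 hne4
  have hgap4' : ∀ χ : FS 4, ⟪jN 4 (u • x4), jN 4 χ⟫_ℂ = 0 →
      (qd (pert A4 W4 lam) (u • x4) + lam * (h4 / 4)) * ‖jN 4 χ‖ ^ 2 ≤
        qd (pert A4 W4 lam) χ := by
    intro χ hχ
    rw [hqy4]
    refine hgap4 χ ?_
    rw [map_smul, inner_smul_left] at hχ
    rcases mul_eq_zero.1 hχ with h | h
    · exact absurd ((map_eq_zero _).1 h) hu0
    · exact h
  have hinj4' : ∀ y ∈ eigS (jN 4) (pert A4 W4 lam) (qd (pert A4 W4 lam) (u • x4)),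
      jN 4 y = 0 → y = 0 := fun y hy h0 => H4.pt.J_injOn hl.le hy h0
  refine ⟨u • x4, hy4min, by rw [hqy4]; exact q1, by rw [hqy4]; exact q2, hu2,
    ⟨_, hδ, hgap4'⟩, fun U f hf hUΦ => ?_⟩
  have := sym_of_gap hB4 (hf.isSym hB4 fun Ψ => H4.en lam Ψ) (c := 1) (H4.norm_e ())
    (by rw [one_smul]; exact hUΦ) hy4min hne4' hδ hgap4' hinj4'
  rwa [one_smul] at this

/-- The ground states of the atom. -/
structure AtomStates (A5 W5 : SForm (FS 5)) (e : Fin 3 × Fin 2 → FS 5) (lam ε : ℝ)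
    (z : Fin 3 × Fin 2 → FS 5) : Prop where
  min : ∀ i, IsMin (jN 5) (pert A5 W5 lam) (z i)
  lo : ∀ i, -11 / 8 ≤ qd (pert A5 W5 lam) (z i)
  hi : ∀ i, qd (pert A5 W5 lam) (z i) ≤ -11 / 8 + ε
  close : ∀ i, ‖jN 5 (z i - e i)‖ ^ 2 ≤ 2 * ε
  rot : ∀ (A : R3 ≃ₗᵢ[ℝ] R3) (U : FS 5 ≃ₗ[ℂ] FS 5), Real 5 U (rot A) →
      (∀ j s, U (e (j, s)) = ∑ i, (mat A j i : ℂ) • e (i, s)) →
      ∀ j s, U (z (j, s)) = ∑ i, (mat A j i : ℂ) • z (i, s)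
  fix : ∀ (U : FS 5 ≃ₗ[ℂ] FS 5) (f : ElectronState 5 → ElectronState 5), Real 5 U f →
    ∀ i, U (e i) = e i → U (z i) = z i

theorem SymHyp.off {Φ0 : FS 4} {e : Fin 3 × Fin 2 → FS 5} (S : SymHyp Φ0 e) (B : SForm (FS 5))
    (hR : ∀ (U : FS 5 ≃ₗ[ℂ] FS 5) (f : ElectronState 5 → ElectronState 5), Real 5 U f →
      IsSym (jN 5) B U) (i j : Fin 3 × Fin 2) (hij : i ≠ j) :
    ∃ U : FS 5 ≃ₗ[ℂ] FS 5, IsSym (jN 5) B U ∧ ∃ a b : ℂ, U (e i) = a • e i ∧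
      U (e j) = b • e j ∧ conj a * b ≠ 1 := by
  obtain ⟨i, s⟩ := i
  obtain ⟨j, s'⟩ := j
  by_cases h : i = j
  · subst h
    have hss : s ≠ s' := fun h => hij (by rw [h])
    obtain ⟨U4, U5, f4, f5, -, hU5, -, m1, m2, -⟩ := S.mul
    refine ⟨U5, hR _ _ hU5, ?_⟩
    fin_cases s <;> fin_cases s'
    · exact absurd rfl hss
    · exact ⟨1, -1, by rw [one_smul]; exact m1 i, m2 i, by norm_num⟩
    · exact ⟨-1, 1, m2 i, by rw [one_smul]; exact m1 i, by norm_num⟩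
    · exact absurd rfl hss
  · obtain ⟨U, hU, hU2⟩ := S.rot5 (signIso i)
    refine ⟨U, hR _ _ hU, -1, 1, ?_, ?_, by norm_num⟩
    · rw [hU2, sum_mat_signIso, if_pos rfl]
    · have : j ≠ i := fun h' => h h'.symm
      rw [hU2, sum_mat_signIso, if_neg this]

theorem SymHyp.diag {Φ0 : FS 4} {e : Fin 3 × Fin 2 → FS 5} (S : SymHyp Φ0 e) (B : SForm (FS 5))
    (hR : ∀ (U : FS 5 ≃ₗ[ℂ] FS 5) (f : ElectronState 5 → ElectronState 5), Real 5 U f →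
      IsSym (jN 5) B U) (i j : Fin 3 × Fin 2) :
    ∃ U : FS 5 ≃ₗ[ℂ] FS 5, IsSym (jN 5) B U ∧ ∃ a : ℂ, U (e i) = a • e j := by
  obtain ⟨i, s⟩ := i
  obtain ⟨j, s'⟩ := j
  obtain ⟨U, hU, hU2⟩ := S.rot5 (permIso (Equiv.swap i j))
  have h1 : U (e (i, s)) = e (j, s) := by
    rw [hU2, sum_mat_permIso]
    simp
  by_cases h : s = s'
  · subst h
    exact ⟨U, hR _ _ hU, 1, by rw [one_smul]; exact h1⟩
  · obtain ⟨F, f, hF, hF2⟩ := S.flip5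
    refine ⟨U.trans F, (hR _ _ hU).trans (hR _ _ hF), ?_⟩
    simp only [LinearEquiv.trans_apply, h1]
    fin_cases s <;> fin_cases s'
    · exact absurd rfl h
    · exact (hF2 j).1
    · exact (hF2 j).2
    · exact absurd rfl h

theorem exists_atomStates {A5 W5 : SForm (FS 5)} {P5 : Submodule ℂ (FS 5)} {Φ0 : FS 4}
    {e : Fin 3 × Fin 2 → FS 5} {w5 g5 h5 c5 C5 : ℝ}
    (H5 : Hyp 5 A5 W5 P5 e (-11 / 8) w5 g5 h5 c5 C5) (S : SymHyp Φ0 e) {ε : ℝ} (hε : 0 < ε)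
    (hε1 : ε < 1) :
    ∃ lam0 > 0, ∀ lam, 0 < lam → lam < lam0 → ∃ z, AtomStates A5 W5 e lam ε z := by
  classical
  have := H5.fin
  obtain ⟨l2, hl2, G2⟩ := H5.main hε
  refine ⟨l2, hl2, fun lam hl a2 => ?_⟩
  have hB5 := H5.pt.herm_pert lam
  obtain ⟨⟨x5, hx5⟩, Q5⟩ := G2 lam hl a2
  obtain ⟨p1, p2, p3, -⟩ := Q5 x5 hx5
  obtain ⟨E5, hE5⟩ : ∃ E5 : ℝ, E5 = qd (pert A5 W5 lam) x5 := ⟨_, rfl⟩
  rw [← hE5] at p1 p2 p3
  have hfin5 : FiniteDimensional ℂ (eigS (jN 5) (pert A5 W5 lam) E5) :=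
    H5.pt.finite_eigS hl.le p3
  have hinj5 : ∀ y ∈ eigS (jN 5) (pert A5 W5 lam) E5, jN 5 y = 0 → y = 0 :=
    fun y hy h0 => H5.pt.J_injOn hl.le hy h0
  choose p hp using fun i => exists_isProj (jN 5) (eigS (jN 5) (pert A5 W5 lam) E5) (e i)
  have hR : ∀ (U : FS 5 ≃ₗ[ℂ] FS 5) (f : ElectronState 5 → ElectronState 5), Real 5 U f →
      IsSym (jN 5) (pert A5 W5 lam) U := fun U f hf => hf.isSym hB5 fun Ψ => H5.en lam Ψ
  have hxE : x5 ∈ eigS (jN 5) (pert A5 W5 lam) E5 := by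
    rw [hE5]; exact hx5.mem_eigS hB5
  have hmin : ∀ x ∈ eigS (jN 5) (pert A5 W5 lam) E5, ‖jN 5 x‖ = 1 →
      IsMin (jN 5) (pert A5 W5 lam) x := by
    intro x hx hx1
    rw [hE5] at hx
    exact isMin_of_mem_eigS hx5 hx hx1
  obtain ⟨t, ht0, ht1, ht2, htn, htc⟩ := sym_close (J := jN 5) (B := pert A5 W5 lam)
    (V0 := Submodule.span ℂ (Set.range e)) (E := E5) (e := e) rfl H5.eO
    (S.off (pert A5 W5 lam) hR) (S.diag (pert A5 W5 lam) hR) hinj5 (η := ε) hε1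
    (fun x hx hx1 => (Q5 x (hmin x hx hx1)).2.2.2) ⟨x5, hxE, hx5.1⟩ hp
  have hst : 0 < Real.sqrt t := Real.sqrt_pos.2 ht0
  have hzE : ∀ i, ((Real.sqrt t)⁻¹ : ℂ) • p i ∈ eigS (jN 5) (pert A5 W5 lam) E5 := fun i =>
    Submodule.smul_mem _ _ (hp i).1
  have hzn : ∀ i, ‖jN 5 (((Real.sqrt t)⁻¹ : ℂ) • p i)‖ = 1 := by
    intro i
    rw [map_smul, norm_smul, norm_inv, Complex.norm_real, Real.norm_of_nonneg hst.le]
    have : ‖jN 5 (p i)‖ = Real.sqrt t := by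
      rw [← htn i, Real.sqrt_sq (norm_nonneg _)]
    rw [this]
    exact inv_mul_cancel₀ hst.ne'
  have hzq : ∀ i, qd (pert A5 W5 lam) (((Real.sqrt t)⁻¹ : ℂ) • p i) = E5 := fun i => by
    rw [qd_of_mem_eigS (hzE i), hzn i]; ring
  refine ⟨fun i => ((Real.sqrt t)⁻¹ : ℂ) • p i, fun i => hmin _ (hzE i) (hzn i), fun i => ?_,
    fun i => ?_, htc, ?_, ?_⟩
  · rw [hzq]; exact p1
  · rw [hzq]; exact p2
  · intro A U hU hU2 j s
    have h1 : IsProj (jN 5) (eigS (jN 5) (pert A5 W5 lam) E5) (U (e (j, s))) (U (p (j, s))) :=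
      (hp (j, s)).sym (hR _ _ hU)
    have h2 : IsProj (jN 5) (eigS (jN 5) (pert A5 W5 lam) E5) (U (e (j, s)))
        (∑ i, (mat A j i : ℂ) • p (i, s)) := by
      rw [hU2]
      exact IsProj.sum _ fun i _ => (hp (i, s)).smul _
    have h3 := h1.unique hinj5 h2
    simp only [map_smul, h3, Finset.smul_sum]
    exact Finset.sum_congr rfl fun i _ => smul_comm _ _ _
  · intro U f hU i hi
    have h1 : IsProj (jN 5) (eigS (jN 5) (pert A5 W5 lam) E5) (U (e i)) (U (p i)) :=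
      (hp i).sym (hR _ _ hU)
    rw [hi] at h1
    have h3 := h1.unique hinj5 (hp i)
    simp only [map_smul, h3]

/-- amplitudes of `f (ofFS y)` when `U y = y'` -/
theorem Real.amp_eq {N : ℕ} {U : FS N ≃ₗ[ℂ] FS N} {f : ElectronState N → ElectronState N}
    (hf : Real N U f) {y y' : FS N} (h : U y = y') (s : Spn N) :
    (f (ofFS y)).amp s =ᵐ[volume] (ofFS y').amp s := by
  have e1 := amb_none_ae (f (ofFS y)) s
  have e2 : toFS (f (ofFS y)) = y' := by rw [← hf.eq]; exact h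
  have e3 : amb (f (ofFS y)) (s, none) = (y'.1 : Amb N) (s, none) := by
    have : (toFS (f (ofFS y))).1 = y'.1 := by rw [e2]
    exact congrArg (fun w : Amb N => w (s, none)) this
  rw [e3] at e1
  exact e1.symm

/-- the vector of Dyson amplitudes is equivariant, hence radial. -/
theorem dyson_radial {A4 W4 : SForm (FS 4)} {A5 W5 : SForm (FS 5)} {Φ0 : FS 4}
    {e : Fin 3 × Fin 2 → FS 5} (S : SymHyp Φ0 e) (D : DysHyp) {lam ε : ℝ} {y : FS 4}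
    {z : Fin 3 × Fin 2 → FS 5} (hy : IonState A4 W4 Φ0 lam ε y)
    (hz : AtomStates A5 W5 e lam ε z) :
    ∃ G : ℝ → ℂ, Measurable G ∧
      ∀ᵐ x, dyson (ofFS y) (ofFS (z (2, 0))) 0 x = G ‖x‖ * (x 2 : ℂ) := by
  set d : Fin 3 → R3 → ℂ := fun j x => dyson (ofFS y) (ofFS (z (j, 0))) 0 x with hd
  have hdL : ∀ j, LocallyIntegrable (d j) volume := fun j =>
    (D.mem (ofFS y) (ofFS (z (j, 0))) 0).locallyIntegrable (by norm_num)
  have heq : ∀ (A : R3 ≃ₗᵢ[ℝ] R3) (j : Fin 3), ∀ᵐ x : R3,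
      d j (A x) = ∑ i, (mat A j i : ℂ) * d i x := by
    intro A j
    obtain ⟨U4, hU4, hU4Φ⟩ := S.rot4 A
    obtain ⟨U5, hU5, hU5e⟩ := S.rot5 A
    have c1 : dyson (rot A (ofFS y)) (rot A (ofFS (z (j, 0)))) 0 =ᵐ[volume]
        dyson (ofFS y) (ofFS (∑ i, (mat A j i : ℂ) • z (i, 0))) 0 :=
      D.congr _ _ _ _ 0 (fun s => hU4.amp_eq (hy.sym U4 _ hU4 hU4Φ) s)
        fun s => hU5.amp_eq (hz.rot A U5 hU5 hU5e j 0) s
    filter_upwards [c1, D.sum (ofFS y) (fun i => (mat A j i : ℂ)) (fun i => z (i, 0)) 0]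
      with x hx1 hx2
    rw [dyson_rot] at hx1
    rw [hx2] at hx1
    exact hx1
  have hA : ∀ (A : R3 ≃ₗᵢ[ℝ] R3) (j : Fin 3), ∀ᵐ x : R3,
      ∑ k, ((A (EuclideanSpace.single j (1 : ℝ))) k : ℂ) * d k (A x) = d j x := by
    intro A j
    have hall : ∀ᵐ x : R3, ∀ k, d k (A x) = ∑ i, (mat A k i : ℂ) * d i x :=
      ae_all_iff.2 fun k => heq A k
    filter_upwards [hall] with x hx
    simp only [hx]
    have h1 : ∀ k, ((A (EuclideanSpace.single j (1 : ℝ))) k : ℂ) = (mat A k j : ℂ) := fun k => rfl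
    simp only [h1, Finset.mul_sum]
    rw [Finset.sum_comm]
    have h2 : ∀ i, ∑ k, (mat A k j : ℂ) * ((mat A k i : ℂ) * d i x) =
        (if j = i then 1 else 0) * d i x := by
      intro i
      have h3 := mat_col A j i
      have h4 : (∑ k, (mat A k j : ℂ) * (mat A k i : ℂ)) = if j = i then 1 else 0 := by
        have := congrArg (fun r : ℝ => (r : ℂ)) h3
        push_cast at this
        rw [this]
        split_ifs <;> simp
      rw [← h4, Finset.sum_mul]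
      exact Finset.sum_congr rfl fun k _ => by ring
    simp only [h2]
    simp
  obtain ⟨G, hG, hGd⟩ := radial_of_equivariant hdL hA
  refine ⟨fun r => G r / (r : ℂ), hG.div Complex.measurable_ofReal, ?_⟩
  filter_upwards [hGd 2] with x hx
  have : dyson (ofFS y) (ofFS (z (2, 0))) 0 x = d 2 x := rfl
  rw [this, hx]
  push_cast
  ring

theorem dyson_down {A4 W4 : SForm (FS 4)} {A5 W5 : SForm (FS 5)} {Φ0 : FS 4}
    {e : Fin 3 × Fin 2 → FS 5} (S : SymHyp Φ0 e) (D : DysHyp) {lam ε : ℝ} {y : FS 4}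
    {z : Fin 3 × Fin 2 → FS 5} (hy : IonState A4 W4 Φ0 lam ε y)
    (hz : AtomStates A5 W5 e lam ε z) :
    ∀ᵐ x, dyson (ofFS y) (ofFS (z (2, 0))) 1 x = 0 := by
  obtain ⟨U4, U5, f4, f5, hU4, hU5, m0, m1, m2, m3⟩ := S.mul
  have c1 : dyson (f4 (ofFS y)) (f5 (ofFS (z (2, 0)))) 1 =ᵐ[volume]
      dyson (ofFS y) (ofFS (z (2, 0))) 1 :=
    D.congr _ _ _ _ 1 (fun s => hU4.amp_eq (hy.sym U4 _ hU4 m0) s)
      fun s => hU5.amp_eq (hz.fix U5 _ hU5 (2, 0) (m1 2)) s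
  filter_upwards [c1] with x hx
  rw [m3] at hx
  have h2 : (2 : ℂ) * dyson (ofFS y) (ofFS (z (2, 0))) 1 x = 0 := by
    linear_combination -hx
  simpa using h2

theorem atomPair_of {A4 W4 : SForm (FS 4)} {A5 W5 : SForm (FS 5)} {P4 : Submodule ℂ (FS 4)}
    {P5 : Submodule ℂ (FS 5)} {Φ0 : FS 4} {e : Fin 3 × Fin 2 → FS 5}
    {w4 w5 g4 g5 h4 h5 c4 C4 c5 C5 : ℝ}
    (H4 : Hyp 4 A4 W4 P4 (fun _ : Unit => Φ0) (-5 / 4) w4 g4 h4 c4 C4)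
    (H5 : Hyp 5 A5 W5 P5 e (-11 / 8) w5 g5 h5 c5 C5)
    (S : SymHyp Φ0 e) (D : DysHyp) {κ : ℝ}
    (hdys : ∀ᵐ x, dyson (ofFS Φ0) (ofFS (e (2, 0))) 0 x = ((κ * orb 4 x : ℝ) : ℂ))
    {lam ε ε' : ℝ} (hε' : 8 * ε' ≤ ε) (hε'0 : 0 < ε') {y : FS 4}
    {z : Fin 3 × Fin 2 → FS 5} (hy : IonState A4 W4 Φ0 lam ε' y)
    (hz : AtomStates A5 W5 e lam ε' z) :
    AtomPair κ lam ε (ofFS y) (ofFS (z (2, 0))) where
  gsΦ := isGroundState_of_isMin (fun Ψ => H4.en lam Ψ) hy.min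
  gsΨ := isGroundState_of_isMin (fun Ψ => H5.en lam Ψ) (hz.min (2, 0))
  E4 := by
    have h1 := hy.lo
    have h2 := hy.hi
    rw [H4.en, toFS_ofFS, abs_le]
    constructor <;> linarith
  E5 := by
    have h1 := hz.lo (2, 0)
    have h2 := hz.hi (2, 0)
    rw [H5.en, toFS_ofFS, abs_le]
    constructor <;> linarith
  gap := by
    obtain ⟨δ, hδ, h⟩ := hy.gap
    refine ⟨δ, hδ, fun χ hχ => ?_⟩
    rw [H4.en, H4.en, ← norm_jN_sq, toFS_ofFS]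
    refine h _ ?_
    have : ⟪jN 4 (toFS (ofFS y)), jN 4 (toFS χ)⟫_ℂ = 0 := by rw [inner_jN]; exact hχ
    rwa [toFS_ofFS] at this
  radial := dyson_radial S D hy hz
  zero := dyson_down S D hy hz
  close := by
    have h1 := D.lip (ofFS y) (ofFS Φ0) (ofFS (z (2, 0))) (ofFS (e (2, 0))) 0
    have h2 : ∫ x, ‖dyson (ofFS y) (ofFS (z (2, 0))) 0 x - ((κ * orb 4 x : ℝ) : ℂ)‖ ^ 2 =
        ∫ x, ‖dyson (ofFS y) (ofFS (z (2, 0))) 0 x -
          dyson (ofFS Φ0) (ofFS (e (2, 0))) 0 x‖ ^ 2 := by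
      refine integral_congr_ae ?_
      filter_upwards [hdys] with x hx
      rw [hx]
    rw [h2]
    refine h1.trans ?_
    have h3 : normSq (ofFS (z (2, 0))) = 1 := by
      rw [normSq_ofFS, (hz.min (2, 0)).1]; norm_num
    have h4 : normSq (ofFS Φ0) = 1 := by
      rw [normSq_ofFS, H4.norm_e ()]; norm_num
    have h5 : distSq (ofFS y) (ofFS Φ0) ≤ 2 * ε' := by
      rw [distSq_eq, toFS_ofFS, toFS_ofFS]; exact hy.close
    have h6 : distSq (ofFS (z (2, 0))) (ofFS (e (2, 0))) ≤ 2 * ε' := by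
      rw [distSq_eq, toFS_ofFS, toFS_ofFS]; exact hz.close (2, 0)
    rw [h3, h4]
    linarith
  dyson_mem := D.mem _ _ _

/-- `B4` from its hypotheses. -/
theorem b4_of {A4 W4 : SForm (FS 4)} {A5 W5 : SForm (FS 5)} {P4 : Submodule ℂ (FS 4)}
    {P5 : Submodule ℂ (FS 5)} {Φ0 : FS 4} {e : Fin 3 × Fin 2 → FS 5}
    {w4 w5 g4 g5 h4 h5 c4 C4 c5 C5 : ℝ}
    (H4 : Hyp 4 A4 W4 P4 (fun _ : Unit => Φ0) (-5 / 4) w4 g4 h4 c4 C4)
    (H5 : Hyp 5 A5 W5 P5 e (-11 / 8) w5 g5 h5 c5 C5)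
    (S : SymHyp Φ0 e) (D : DysHyp) {α β κ : ℝ}
    (hα : 0 < α) (hα2 : α < 2) (hβ : 0 < β) (hβ2 : β < 2) (hs : α + 2 * β = 2) (hκ : 0 < κ)
    (hden : ∀ᵐ x, density (ofFS (e (2, 0))) x = n0 α β x)
    (hdys : ∀ᵐ x, dyson (ofFS Φ0) (ofFS (e (2, 0))) 0 x = ((κ * orb 4 x : ℝ) : ℂ)) :
    ∃ (α β κ : ℝ) (Ψ0 : ElectronState 5), 0 < α ∧ α < 2 ∧ 0 < β ∧ β < 2 ∧ α + 2 * β = 2 ∧
    0 < κ ∧ IsGroundState (pot 0) Ψ0 ∧ energy (pot 0) Ψ0 = -11 / 8 ∧ (∀ᵐ x, density Ψ0 x = n0 α β x) ∧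
    ∀ ε > 0, ∃ lam0 > 0, ∀ lam, 0 < lam → lam < lam0 →
      ∃ (Φ : ElectronState 4) (Ψ : ElectronState 5), AtomPair κ lam ε Φ Ψ ∧ distSq Ψ Ψ0 ≤ ε ∧
        energy (pot 0) Ψ ≤ -11 / 8 + ε := by
  have := H4.fin
  have := H5.fin
  have hen0 : ∀ Ψ : ElectronState 5, energy (pot 0) Ψ = qd A5 (toFS Ψ) := by
    intro Ψ
    rw [H5.en, qd_pert]; ring
  refine ⟨α, β, κ, ofFS (e (2, 0)), hα, hα2, hβ, hβ2, hs, hκ, ?_, ?_, hden, ?_⟩
  · refine ⟨by rw [normSq_ofFS, H5.norm_e]; norm_num, fun Φ hΦ => ?_⟩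
    rw [hen0, hen0, toFS_ofFS, H5.pt.qd_eig (H5.eP _), H5.norm_e]
    have := H5.pt.lower' (toFS Φ)
    rw [norm_jN_sq, hΦ] at this
    linarith
  · rw [hen0, toFS_ofFS, H5.pt.qd_eig (H5.eP _), H5.norm_e]; norm_num
  intro ε hε
  obtain ⟨ε', hε'0, hε'1, hε'2⟩ : ∃ ε' : ℝ, 0 < ε' ∧ 8 * ε' ≤ ε ∧ ε' < 1 := by
    refine ⟨min (ε / 8) (1 / 8), by positivity, ?_, ?_⟩
    · have := min_le_left (ε / 8) (1 / 8 : ℝ)
      linarith
    · have := min_le_right (ε / 8) (1 / 8 : ℝ)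
      linarith
  obtain ⟨l1, hl1, G1⟩ := exists_ionState H4 hε'0 hε'2
  obtain ⟨l2, hl2, G2⟩ := exists_atomStates H5 S hε'0 hε'2
  refine ⟨min l1 l2, lt_min hl1 hl2, fun lam hl hl' => ?_⟩
  obtain ⟨y, hy⟩ := G1 lam hl (hl'.trans_le (min_le_left _ _))
  obtain ⟨z, hz⟩ := G2 lam hl (hl'.trans_le (min_le_right _ _))
  refine ⟨ofFS y, ofFS (z (2, 0)), atomPair_of H4 H5 S D hdys hε'1 hε'0 hy hz, ?_, ?_⟩
  · rw [distSq_eq, toFS_ofFS, toFS_ofFS]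
    have := hz.close (2, 0)
    linarith
  · rw [hen0, toFS_ofFS]
    have h1 := H5.pt.qd_le_pert hl.le (z (2, 0))
    have h2 := hz.hi (2, 0)
    linarith

end

end Vale.Agent.P363.R.B4
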