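import Vale.Agent.P363.R.B4.Conc
import Vale.Agent.P363.H868.Actions
import Vale.Agent.P363.H868.Radial

/-! B4: hypotheses of the assembly (to be provided by the other files), and the assembly itself. -/

namespace Vale.Agent.P363.R.B4

open Filter Topology MeasureTheory
open Vale.Agent.P363.Stmt Vale.Agent.P363.H382 Vale.Agent.P363.R.Top Vale.Agent.P363.H868
open scoped ComplexConjugate InnerProductSpace

noncomputable section

/-- facts on the energy forms and the first order problem for `N` electrons.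
`e` is an orthonormal basis of the lowest first-order eigenspace. -/
structure Hyp (N : ℕ) (A W : SForm (FS N)) (P : Submodule ℂ (FS N)) {ι : Type} [Fintype ι]
    [DecidableEq ι] (e : ι → FS N) (E0 w0 g g1 c C : ℝ) : Prop where
  fin : FiniteDimensional ℂ P
  en : ∀ (lam : ℝ) (Ψ : ElectronState N), energy (pot lam) Ψ = qd (pert A W lam) (toFS Ψ)
  pt : PT (jN N) A W P E0 g c C
  hw0 : 0 ≤ w0
  hg1 : 0 < g1
  eP : ∀ i, e i ∈ P
  eO : ∀ i j, ⟪jN N (e i), jN N (e j)⟫_ℂ = if i = j then 1 else 0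
  eW : ∀ i, qd W (e i) = w0
  gap : ∀ p ∈ P, w0 * ‖jN N p‖ ^ 2 +
    g1 * (‖jN N p‖ ^ 2 - ∑ i, ‖⟪jN N (e i), jN N p⟫_ℂ‖ ^ 2) ≤ qd W p

theorem Hyp.norm_e {N : ℕ} {A W : SForm (FS N)} {P : Submodule ℂ (FS N)} {ι : Type} [Fintype ι]
    [DecidableEq ι] {e : ι → FS N} {E0 w0 g g1 c C : ℝ} (h : Hyp N A W P e E0 w0 g g1 c C) (i : ι) :
    ‖jN N (e i)‖ = 1 := by
  have h1 : ‖jN N (e i)‖ ^ 2 = 1 := by
    rw [← qd_jForm, qd, jForm_apply, h.eO i i]; simp
  nlinarith [norm_nonneg (jN N (e i))]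

theorem Hyp.pt0 {N : ℕ} {A W : SForm (FS N)} {P : Submodule ℂ (FS N)} {ι : Type} [Fintype ι]
    [DecidableEq ι] {e : ι → FS N} {E0 w0 g g1 c C : ℝ} (h : Hyp N A W P e E0 w0 g g1 c C) :
    PT0 (jN N) W P (Submodule.span ℂ (Set.range e)) w0 g1 := by
  refine pt0_of_gap h.pt.hW h.hw0 h.hg1 e h.eP (fun i => ?_) h.gap (fun p _ => ?_)
  · rw [h.eW, h.norm_e]; ring
  · have ho : Orthonormal ℂ fun i => jN N (e i) := by
      rw [orthonormal_iff_ite]
      exact h.eO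
    exact ho.sum_inner_products_le (jN N p) (s := Finset.univ)

/-- ground states exist for small coupling and are close to the span of `e`. -/
theorem Hyp.main {N : ℕ} {A W : SForm (FS N)} {P : Submodule ℂ (FS N)} {ι : Type} [Fintype ι]
    [DecidableEq ι] [Nonempty ι] {e : ι → FS N} {E0 w0 g g1 c C : ℝ}
    (h : Hyp N A W P e E0 w0 g g1 c C) {ε : ℝ} (hε : 0 < ε) :
    ∃ lam0 > 0, ∀ lam, 0 < lam → lam < lam0 →
      (∃ x, IsMin (jN N) (pert A W lam) x) ∧
      ∀ x, IsMin (jN N) (pert A W lam) x →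
        E0 ≤ qd (pert A W lam) x ∧ qd (pert A W lam) x ≤ E0 + ε ∧ qd (pert A W lam) x < E0 + g ∧
        ∃ v ∈ Submodule.span ℂ (Set.range e), ∃ r, x = v + r ∧
          (∀ v' ∈ Submodule.span ℂ (Set.range e), ⟪jN N v', jN N r⟫_ℂ = 0) ∧
          ‖jN N r‖ ^ 2 ≤ ε := by
  have := h.fin
  have hfin : FiniteDimensional ℂ (Submodule.span ℂ (Set.range e)) :=
    FiniteDimensional.span_of_finite ℂ (Set.finite_range e)
  obtain ⟨i0⟩ := ‹Nonempty ι›
  obtain ⟨K, hK, H⟩ := pt_close h.pt h.pt0 w0 h.hw0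
  obtain ⟨l1, hl1, hl1', H1⟩ := exists_lam K hK hε
  have hg := h.pt.hg
  have hw0 := h.hw0
  refine ⟨min l1 (min (ε / (w0 + 1)) (g / (w0 + 1))), by positivity, fun lam hl hl' => ?_⟩
  have a1 : lam < l1 := hl'.trans_le (min_le_left _ _)
  have a2 : lam < ε / (w0 + 1) := hl'.trans_le ((min_le_right _ _).trans (min_le_left _ _))
  have a3 : lam < g / (w0 + 1) := hl'.trans_le ((min_le_right _ _).trans (min_le_right _ _))
  rw [lt_div_iff₀ (by positivity)] at a2 a3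
  have a4 : lam * w0 < ε := by nlinarith
  have a5 : lam * w0 < g := by nlinarith
  refine ⟨h.pt.exists_isMin hl.le (h.eP i0) (h.norm_e i0) (by rw [h.eW]; exact a5), ?_⟩
  intro x hx
  have b1 := h.pt.isMin_le hx (h.eP i0) (h.norm_e i0)
  rw [h.eW] at b1
  refine ⟨h.pt.le_isMin hl.le hx, by linarith, by linarith, ?_⟩
  obtain ⟨v, hv, r, hr1, hr2, hr3⟩ := H lam hl (by linarith) x hx.1 (by rw [← qd_pert]; exact b1)
  refine ⟨v, hv, r, hr1, hr2, hr3.trans ?_⟩
  rw [sub_self, zero_div, zero_add]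
  exact H1 lam hl a1

end

end Vale.Agent.P363.R.B4
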