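import Vale.Agent.P363.MathlibUsed

/-! B4a: abstract degenerate perturbation theory for hermitian forms on a Hilbert space.
Part 1: quadratic forms and existence of minimisers. -/

namespace Vale.Agent.P363.R.B4

open Filter Topology
open scoped ComplexConjugate InnerProductSpace

noncomputable section

variable {V H : Type*} [NormedAddCommGroup V] [InnerProductSpace ℂ V]
  [NormedAddCommGroup H] [InnerProductSpace ℂ H]

/-- bounded sesquilinear forms, conjugate linear in the first variable. -/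
abbrev SForm (V : Type*) [NormedAddCommGroup V] [InnerProductSpace ℂ V] : Type _ :=
  V →L⋆[ℂ] V →L[ℂ] ℂ

/-- the quadratic form. -/
def qd (B : SForm V) (x : V) : ℝ := (B x x).re

/-- hermitian form. -/
def Herm (B : SForm V) : Prop := ∀ x y, B y x = conj (B x y)

theorem qd_def (B : SForm V) (x : V) : qd B x = (B x x).re := rfl

theorem qd_add {B : SForm V} (hB : Herm B) (x y : V) :
    qd B (x + y) = qd B x + qd B y + 2 * (B x y).re := by
  have h : B y x = conj (B x y) := hB x y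
  have e : B (x + y) (x + y) = B x x + B x y + (B y x + B y y) := by
    rw [map_add, map_add]
    change B x x + B y x + (B x y + B y y) = _
    ring
  rw [qd, qd, qd, e, h]
  simp only [Complex.add_re, Complex.conj_re]
  ring

theorem form_smul (B : SForm V) (c d : ℂ) (x y : V) : B (c • x) (d • y) = conj c * d * B x y := by
  have h1 : B (c • x) = conj c • B x := B.map_smulₛₗ c x
  rw [h1, map_smul, smul_eq_mul]
  change d * (conj c * B x y) = _
  ring

theorem qd_smul (B : SForm V) (c : ℂ) (x : V) : qd B (c • x) = ‖c‖ ^ 2 * qd B x := by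
  rw [qd, form_smul, mul_comm (conj c) c, Complex.mul_conj, Complex.re_ofReal_mul,
    Complex.normSq_eq_norm_sq, qd]

theorem qd_neg (B : SForm V) (x : V) : qd B (-x) = qd B x := by
  have := qd_smul B (-1) x
  simpa using this

theorem qd_sub {B : SForm V} (hB : Herm B) (x y : V) :
    qd B (x - y) = qd B x + qd B y - 2 * (B x y).re := by
  rw [sub_eq_add_neg, qd_add hB, qd_neg]
  simp only [map_neg, Complex.neg_re]
  ring

/-- parallelogram identity -/
theorem qd_parallelogram {B : SForm V} (hB : Herm B) (x y : V) :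
    qd B (x + y) + qd B (x - y) = 2 * qd B x + 2 * qd B y := by
  rw [qd_add hB, qd_sub hB]; ring

theorem continuous_form (B : SForm V) : Continuous fun p : V × V => B p.1 p.2 :=
  (B.continuous.comp continuous_fst).clm_apply continuous_snd

theorem continuous_qd (B : SForm V) : Continuous (qd B) :=
  Complex.continuous_re.comp ((continuous_form B).comp (continuous_id.prodMk continuous_id))

theorem norm_form_le (B : SForm V) (x y : V) : ‖B x y‖ ≤ ‖B‖ * ‖x‖ * ‖y‖ :=
  B.le_opNorm₂ x y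

/-- the form `⟪J x, J y⟫`. -/
def jForm (J : V →L[ℂ] H) : SForm V :=
  (innerSL ℂ (E := H)).bilinearComp J J

@[simp] theorem jForm_apply (J : V →L[ℂ] H) (x y : V) : jForm J x y = ⟪J x, J y⟫_ℂ := rfl

theorem qd_jForm (J : V →L[ℂ] H) (x : V) : qd (jForm J) x = ‖J x‖ ^ 2 := by
  rw [qd, jForm_apply]
  exact (norm_sq_eq_re_inner (𝕜 := ℂ) (J x)).symm

theorem herm_jForm (J : V →L[ℂ] H) : Herm (jForm J) := fun x y => by
  simp only [jForm_apply]
  exact (inner_conj_symm (J y) (J x)).symm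

theorem Herm.add {B B' : SForm V} (h : Herm B) (h' : Herm B') : Herm (B + B') := fun x y => by
  change B y x + B' y x = conj (B x y + B' x y)
  rw [h x y, h' x y, map_add]

theorem Herm.real_smul {B : SForm V} (h : Herm B) (t : ℝ) : Herm ((t : ℂ) • B) := fun x y => by
  change (t : ℂ) * B y x = conj ((t : ℂ) * B x y)
  rw [h x y, map_mul, Complex.conj_ofReal]

theorem qd_add_form (B B' : SForm V) (x : V) : qd (B + B') x = qd B x + qd B' x := rfl

theorem qd_smul_form (B : SForm V) (t : ℝ) (x : V) : qd ((t : ℂ) • B) x = t * qd B x := by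
  change ((t : ℂ) * B x x).re = _
  rw [Complex.re_ofReal_mul, qd]

/-- nonnegative hermitian form: if `b(x,x) = 0` then `b(x,y) = 0`. -/
theorem form_eq_zero_of_qd_eq_zero {B : SForm V} (hB : Herm B) (hp : ∀ x, 0 ≤ qd B x) {x : V}
    (hx : qd B x = 0) (y : V) : B x y = 0 := by
  -- test with `y - ...`
  by_contra hne
  set z : ℂ := B x y with hz
  have hzpos : 0 < ‖z‖ ^ 2 := by positivity
  -- consider `t * z • x + y`, for real t
  have key : ∀ t : ℝ, 0 ≤ qd B y + 2 * (t * ‖z‖ ^ 2) := by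
    intro t
    have h1 := hp (((t : ℂ) * z) • x + y)
    rw [qd_add hB, qd_smul, hx] at h1
    have h2 : (B (((t : ℂ) * z) • x) y).re = t * ‖z‖ ^ 2 := by
      have : B (((t : ℂ) * z) • x) y = conj ((t : ℂ) * z) * 1 * B x y := by
        have := form_smul B ((t : ℂ) * z) 1 x y
        rwa [one_smul] at this
      rw [this, ← hz, map_mul, Complex.conj_ofReal, mul_one, mul_assoc, mul_comm (conj z) z,
        Complex.mul_conj, Complex.re_ofReal_mul, Complex.ofReal_re, Complex.normSq_eq_norm_sq]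
    rw [h2] at h1
    linarith
  have := key (-(qd B y + 1) / (2 * ‖z‖ ^ 2))
  have e : 2 * (-(qd B y + 1) / (2 * ‖z‖ ^ 2) * ‖z‖ ^ 2) = -(qd B y + 1) := by
    field_simp
  rw [e] at this
  linarith

/-- Existence of minimisers (no weak compactness): parallelogram argument. -/
theorem exists_min [CompleteSpace V] {J : V →L[ℂ] H} {B : SForm V} (hB : Herm B)
    {G : Type*} [NormedAddCommGroup G] [NormedSpace ℂ G] [FiniteDimensional ℂ G] (F : V →L[ℂ] G)
    {c C E' K : ℝ} (hc : 0 < c) (coer : ∀ x, c * ‖x‖ ^ 2 ≤ qd B x + C * ‖J x‖ ^ 2)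
    (hK : 0 ≤ K) (gap : ∀ x, E' * ‖J x‖ ^ 2 - K * ‖F x‖ ^ 2 ≤ qd B x)
    (x1 : V) (h1 : ‖J x1‖ = 1) (h2 : qd B x1 < E') :
    ∃ x, ‖J x‖ = 1 ∧ ∀ y, qd B x * ‖J y‖ ^ 2 ≤ qd B y := by
  have : ProperSpace G := FiniteDimensional.proper ℂ G
  set S : Set ℝ := qd B '' {y | ‖J y‖ = 1} with hS
  have hne : S.Nonempty := ⟨_, x1, h1, rfl⟩
  have hbdd : BddBelow S := by
    refine ⟨-C, ?_⟩
    rintro _ ⟨y, hy, rfl⟩
    have hy' : ‖J y‖ = 1 := hy
    have := coer y
    rw [hy'] at this
    have h0 : 0 ≤ c * ‖y‖ ^ 2 := by positivity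
    linarith
  set E : ℝ := sInf S with hE
  have hE1 : E ≤ qd B x1 := csInf_le hbdd ⟨x1, h1, rfl⟩
  have hEE' : 0 < E' - E := by linarith
  -- homogeneous lower bound
  have hlow : ∀ y, E * ‖J y‖ ^ 2 ≤ qd B y := by
    intro y
    by_cases hy : J y = 0
    · have := coer y
      rw [hy] at this ⊢
      simp only [norm_zero, ne_eq, OfNat.ofNat_ne_zero, not_false_eq_true, zero_pow, mul_zero,
        add_zero] at this ⊢
      exact le_trans (by positivity) this
    · have hpos : 0 < ‖J y‖ := norm_pos_iff.2 hy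
      have hmem : qd B (((‖J y‖⁻¹ : ℝ) : ℂ) • y) ∈ S := by
        refine ⟨_, ?_, rfl⟩
        change ‖J (((‖J y‖⁻¹ : ℝ) : ℂ) • y)‖ = 1
        rw [map_smul, norm_smul, Complex.norm_real, Real.norm_of_nonneg (by positivity)]
        exact inv_mul_cancel₀ hpos.ne'
      have h := csInf_le hbdd hmem
      rw [qd_smul, Complex.norm_real, Real.norm_of_nonneg (by positivity)] at h
      have : E * ‖J y‖ ^ 2 ≤ (‖J y‖⁻¹ ^ 2 * qd B y) * ‖J y‖ ^ 2 :=
        mul_le_mul_of_nonneg_right h (by positivity)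
      have e : (‖J y‖⁻¹ ^ 2 * qd B y) * ‖J y‖ ^ 2 = qd B y := by
        field_simp
      rwa [e] at this
  -- minimising sequence
  obtain ⟨u, -, hu, humem⟩ := exists_seq_tendsto_sInf hne hbdd
  choose x hx hxu using humem
  have hx1 : ∀ n, ‖J (x n)‖ = 1 := hx
  have hlim : Tendsto (fun n => qd B (x n)) atTop (𝓝 E) := by
    simpa only [hxu] using hu
  -- boundedness
  obtain ⟨M, hM⟩ := hlim.bddAbove_range
  have hM' : ∀ n, qd B (x n) ≤ M := fun n => hM ⟨n, rfl⟩
  have hbd : ∀ n, ‖x n‖ ≤ Real.sqrt ((M + C) / c) := by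
    intro n
    apply Real.le_sqrt_of_sq_le
    rw [le_div_iff₀ hc]
    have := coer (x n)
    rw [hx1 n] at this
    nlinarith [hM' n]
  have hFb : ∀ n, F (x n) ∈ Metric.closedBall (0 : G) (‖F‖ * Real.sqrt ((M + C) / c)) := by
    intro n
    rw [mem_closedBall_zero_iff]
    exact (F.le_opNorm _).trans (mul_le_mul_of_nonneg_left (hbd n) (norm_nonneg _))
  obtain ⟨_, -, ψ, hψ, hFlim⟩ := (isCompact_closedBall (0 : G)
    (‖F‖ * Real.sqrt ((M + C) / c))).tendsto_subseq hFb
  -- the shifted form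
  set b : SForm V := B + ((-E : ℝ) : ℂ) • jForm J with hb
  have hbH : Herm b := hB.add ((herm_jForm J).real_smul _)
  have hbq : ∀ y, qd b y = qd B y - E * ‖J y‖ ^ 2 := by
    intro y
    rw [hb, qd_add_form, qd_smul_form, qd_jForm]
    ring
  have hbpos : ∀ y, 0 ≤ qd b y := fun y => by
    rw [hbq]; linarith [hlow y]
  have hbpar : ∀ y z, qd b (y - z) ≤ 2 * qd b y + 2 * qd b z := by
    intro y z
    have := qd_parallelogram hbH y z
    linarith [hbpos (y + z)]
  set L : ℝ := |E + C| / (E' - E) with hL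
  have hL0 : 0 ≤ L := by positivity
  have hkey : ∀ y, c * ‖y‖ ^ 2 ≤ (1 + L) * qd b y + L * K * ‖F y‖ ^ 2 := by
    intro y
    have g1 := gap y
    have g2 := coer y
    have g3 := hbq y
    have g4 : (E' - E) * ‖J y‖ ^ 2 ≤ qd b y + K * ‖F y‖ ^ 2 := by linarith
    have g5 : (E + C) * ‖J y‖ ^ 2 ≤ L * (qd b y + K * ‖F y‖ ^ 2) := by
      have h3 : (E + C) * ‖J y‖ ^ 2 ≤ |E + C| * ‖J y‖ ^ 2 :=
        mul_le_mul_of_nonneg_right (le_abs_self _) (by positivity)
      have h4 : |E + C| * ‖J y‖ ^ 2 = L * ((E' - E) * ‖J y‖ ^ 2) := by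
        rw [hL]; field_simp
      rw [h4] at h3
      exact h3.trans (mul_le_mul_of_nonneg_left g4 hL0)
    nlinarith
  -- Cauchy
  set y : ℕ → V := fun n => x (ψ n) with hy
  have hylim : Tendsto (fun n => qd b (y n)) atTop (𝓝 0) := by
    have h := (hlim.comp hψ.tendsto_atTop).sub_const E
    rw [sub_self] at h
    refine h.congr fun n => ?_
    simp only [Function.comp_apply, hbq, hy, hx1]
    ring
  have hFc : CauchySeq (fun n => F (y n)) := hFlim.cauchySeq
  have hcau : CauchySeq y := by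
    rw [Metric.cauchySeq_iff]
    intro ε hε
    obtain ⟨δ, hδ, hδε⟩ : ∃ δ > 0, (1 + L) * (4 * δ) + L * K * δ < c * ε ^ 2 := by
      have hden : 0 < (1 + L) * 4 + L * K + 1 := by positivity
      refine ⟨c * ε ^ 2 / ((1 + L) * 4 + L * K + 1), by positivity, ?_⟩
      have : (1 + L) * (4 * (c * ε ^ 2 / ((1 + L) * 4 + L * K + 1))) +
          L * K * (c * ε ^ 2 / ((1 + L) * 4 + L * K + 1)) =
          c * ε ^ 2 * (((1 + L) * 4 + L * K) / ((1 + L) * 4 + L * K + 1)) := by
        field_simp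
      rw [this]
      have h1 : ((1 + L) * 4 + L * K) / ((1 + L) * 4 + L * K + 1) < 1 := by
        rw [div_lt_one hden]; linarith
      have h2 : 0 < c * ε ^ 2 := by positivity
      nlinarith
    have hev := (hylim.eventually (gt_mem_nhds hδ))
    obtain ⟨N1, hN1⟩ := eventually_atTop.1 hev
    obtain ⟨N2, hN2⟩ := Metric.cauchySeq_iff.1 hFc (Real.sqrt δ) (Real.sqrt_pos.2 hδ)
    refine ⟨max N1 N2, fun m hm n hn => ?_⟩
    have a1 := hN1 m (le_of_max_le_left hm)
    have a2 := hN1 n (le_of_max_le_left hn)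
    have a3 := hN2 m (le_of_max_le_right hm) n (le_of_max_le_right hn)
    rw [dist_eq_norm] at a3 ⊢
    have a4 : ‖F (y m - y n)‖ ^ 2 ≤ δ := by
      rw [map_sub]
      calc ‖F (y m) - F (y n)‖ ^ 2 ≤ (Real.sqrt δ) ^ 2 :=
            pow_le_pow_left₀ (norm_nonneg _) a3.le 2
        _ = δ := Real.sq_sqrt hδ.le
    have a5 := hkey (y m - y n)
    have a6 := hbpar (y m) (y n)
    have a7 : (1 + L) * qd b (y m - y n) ≤ (1 + L) * (4 * δ) :=
      mul_le_mul_of_nonneg_left (by linarith) (by positivity)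
    have a8 : L * K * ‖F (y m - y n)‖ ^ 2 ≤ L * K * δ :=
      mul_le_mul_of_nonneg_left a4 (by positivity)
    have a9 : c * ‖y m - y n‖ ^ 2 < c * ε ^ 2 := by linarith
    exact lt_of_pow_lt_pow_left₀ 2 hε.le (lt_of_mul_lt_mul_left a9 hc.le)
  obtain ⟨z, hz⟩ := cauchySeq_tendsto_of_complete hcau
  have hz1 : ‖J z‖ = 1 := by
    have h : Tendsto (fun n => ‖J (y n)‖) atTop (𝓝 ‖J z‖) :=
      ((J.continuous.tendsto z).comp hz).norm
    have h' : Tendsto (fun n => ‖J (y n)‖) atTop (𝓝 1) := by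
      simp only [hy, hx1]
      exact tendsto_const_nhds
    exact tendsto_nhds_unique h h'
  have hzE : qd B z = E := by
    have h : Tendsto (fun n => qd B (y n)) atTop (𝓝 (qd B z)) :=
      ((continuous_qd B).tendsto z).comp hz
    exact tendsto_nhds_unique h (hlim.comp hψ.tendsto_atTop)
  exact ⟨z, hz1, fun w => by rw [hzE]; exact hlow w⟩

end

end Vale.Agent.P363.R.B4
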