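import Vale.Agent.P363.R.B4.Ground
import Vale.Agent.P363.H382.Space
import Vale.Agent.P363.R.Top.Defs

/-! B4: the concrete Hilbert space of electron states, link with the abstract theory. -/

namespace Vale.Agent.P363.R.B4

open Filter Topology MeasureTheory
open Vale.Agent.P363.Stmt Vale.Agent.P363.H382 Vale.Agent.P363.R.Top
open scoped ComplexConjugate InnerProductSpace

noncomputable section

section abs

variable {V H : Type*} [NormedAddCommGroup V] [InnerProductSpace ℂ V]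
  [NormedAddCommGroup H] [InnerProductSpace ℂ H]

/-- polarisation: equality of quadratic forms of hermitian forms. -/
theorem form_eq_of_qd {B B' : SForm V} (hB : Herm B) (hB' : Herm B') (h : ∀ x, qd B x = qd B' x)
    (x y : V) : B x y = B' x y := by
  have key : ∀ x y, (B x y).re = (B' x y).re := by
    intro x y
    have h1 := qd_add hB x y
    have h2 := qd_add hB' x y
    rw [h, h x, h y] at h1
    linarith
  refine Complex.ext (key x y) ?_
  have h1 := key (Complex.I • x) y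
  have e1 : ∀ B : SForm V, B (Complex.I • x) y = -Complex.I * B x y := by
    intro B
    have := form_smul B Complex.I 1 x y
    rw [one_smul, mul_one, Complex.conj_I] at this
    exact this
  rw [e1 B, e1 B'] at h1
  simpa using h1

/-- the form `B (U x) (U y)`. -/
def pull (B : SForm V) (U : V →L[ℂ] V) : SForm V := B.bilinearComp U U

theorem form_inv_of_qd {B : SForm V} (hB : Herm B) (U : V ≃ₗ[ℂ] V)
    (h : ∀ x, qd B (U x) = qd B x) (x y : V) : B (U x) (U y) = B x y := by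
  have key : ∀ x y, (B (U x) (U y)).re = (B x y).re := by
    intro x y
    have h1 := qd_add hB x y
    have h2 := qd_add hB (U x) (U y)
    rw [← map_add, h, h x, h y] at h2
    linarith
  refine Complex.ext (key x y) ?_
  have h1 := key (Complex.I • x) y
  rw [map_smul] at h1
  have e1 : ∀ x y : V, B (Complex.I • x) y = -Complex.I * B x y := by
    intro x y
    have := form_smul B Complex.I 1 x y
    rw [one_smul, mul_one, Complex.conj_I] at this
    exact this
  rw [e1, e1] at h1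
  simpa using h1

/-- a linear equivalence preserving `‖J x‖` and the quadratic form is a symmetry. -/
theorem isSym_of_qd {J : V →L[ℂ] H} {B : SForm V} (hB : Herm B) (U : V ≃ₗ[ℂ] V)
    (hJ : ∀ x, ‖J (U x)‖ = ‖J x‖) (h : ∀ x, qd B (U x) = qd B x) : IsSym J B U where
  inner x y := form_inv_of_qd (herm_jForm J) U (fun z => by rw [qd_jForm, qd_jForm, hJ]) x y
  form x y := form_inv_of_qd hB U h x y

theorem IsSym.trans {J : V →L[ℂ] H} {B : SForm V} {U U' : V ≃ₗ[ℂ] V} (hU : IsSym J B U)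
    (hU' : IsSym J B U') : IsSym J B (U.trans U') where
  inner x y := by
    simp only [LinearEquiv.trans_apply]
    rw [hU'.inner, hU.inner]
  form x y := by
    simp only [LinearEquiv.trans_apply]
    rw [hU'.form, hU.form]

theorem IsSym.refl (J : V →L[ℂ] H) (B : SForm V) : IsSym J B (LinearEquiv.refl ℂ V) :=
  ⟨fun _ _ => rfl, fun _ _ => rfl⟩

/-- First order data from a gap inequality with respect to an orthonormal family. -/
theorem pt0_of_gap {J : V →L[ℂ] H} {W : SForm V} {P : Submodule ℂ V} {w0 g1 : ℝ} (hW : Herm W)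
    (hw0 : 0 ≤ w0) (hg1 : 0 < g1) {ι : Type*} [Fintype ι] [DecidableEq ι] (e : ι → V)
    (heP : ∀ i, e i ∈ P)
    (heW : ∀ i, qd W (e i) = w0 * ‖J (e i)‖ ^ 2)
    (hgap : ∀ p ∈ P, w0 * ‖J p‖ ^ 2 + g1 * (‖J p‖ ^ 2 - ∑ i, ‖⟪J (e i), J p⟫_ℂ‖ ^ 2) ≤ qd W p)
    (hbes : ∀ p ∈ P, ∑ i, ‖⟪J (e i), J p⟫_ℂ‖ ^ 2 ≤ ‖J p‖ ^ 2) :
    PT0 J W P (Submodule.span ℂ (Set.range e)) w0 g1 where
  hw0 := hw0
  hg1 := hg1
  le := by
    rw [Submodule.span_le]
    rintro _ ⟨i, rfl⟩
    exact heP i
  on := by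
    intro v hv p hp
    -- the form `W - w0 J` on `P`
    set b : SForm V := W + ((-w0 : ℝ) : ℂ) • jForm J with hb
    have hbH : Herm b := hW.add ((herm_jForm J).real_smul _)
    have hbq : ∀ y, qd b y = qd W y - w0 * ‖J y‖ ^ 2 := by
      intro y
      rw [hb, qd_add_form, qd_smul_form, qd_jForm]
      ring
    -- restrict to P
    let bP : SForm P := b.bilinearComp P.subtypeL P.subtypeL
    have hbP : ∀ x y : P, bP x y = b x y := fun x y => rfl
    have hbPH : Herm bP := fun x y => by rw [hbP, hbP]; exact hbH x y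
    have hpos : ∀ x : P, 0 ≤ qd bP x := by
      intro x
      have h1 : qd bP x = qd b (x : V) := rfl
      rw [h1, hbq]
      have h2 := hgap x x.2
      have h3 := hbes x x.2
      have h4 : 0 ≤ g1 * (‖J (x : V)‖ ^ 2 - ∑ i, ‖⟪J (e i), J (x : V)⟫_ℂ‖ ^ 2) :=
        mul_nonneg hg1.le (by linarith)
      linarith
    have hz : ∀ i, ∀ p : P, bP ⟨e i, heP i⟩ p = 0 := by
      intro i p
      refine form_eq_zero_of_qd_eq_zero hbPH hpos ?_ p
      have h1 : qd bP ⟨e i, heP i⟩ = qd b (e i) := rfl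
      rw [h1, hbq, heW]
      ring
    have hz2 : ∀ v ∈ Submodule.span ℂ (Set.range e), b v p = 0 := by
      intro v hv
      refine Submodule.span_induction (p := fun v _ => b v p = 0) ?_ ?_ ?_ ?_ hv
      · rintro _ ⟨i, rfl⟩
        exact hz i ⟨p, hp⟩
      · rw [map_zero]; rfl
      · intro x y _ _ hx hy
        have : b (x + y) p = b x p + b y p := by rw [map_add]; rfl
        rw [this, hx, hy, add_zero]
      · intro a x _ hx
        have : b (a • x) p = conj a * b x p := by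
          have := form_smul b a 1 x p
          rwa [one_smul, mul_one] at this
        rw [this, hx, mul_zero]
    have h1 := hz2 v hv
    have h2 : b v p = W v p + ((-w0 : ℝ) : ℂ) * ⟪J v, J p⟫_ℂ := rfl
    rw [h2] at h1
    push_cast at h1
    linear_combination h1
  gap := by
    intro p hp ho
    have h1 := hgap p hp
    have h2 : ∑ i, ‖⟪J (e i), J p⟫_ℂ‖ ^ 2 = 0 := by
      refine Finset.sum_eq_zero fun i _ => ?_
      rw [ho _ (Submodule.subset_span ⟨i, rfl⟩)]
      simp
    rw [h2] at h1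
    linarith

end abs

/-! ### the concrete space -/

/-- amplitude map on the Hilbert space of states. -/
def jN (N : ℕ) : FS N →L[ℂ] LS N := am.comp (FSub N).subtypeL

theorem jN_apply {N : ℕ} (u : FS N) (s : Spn N) : jN N u s = u.1 (s, none) := rfl

theorem norm_toLp_sq {N : ℕ} {f : Conf N → ℂ} (hf : MemLp f 2 volume) :
    ‖hf.toLp f‖ ^ 2 = ∫ x, ‖f x‖ ^ 2 := by
  have h1 : ‖hf.toLp f‖ ^ 2 = (⟪hf.toLp f, hf.toLp f⟫_ℂ).re :=
    norm_sq_eq_re_inner (𝕜 := ℂ) _
  rw [h1, L2.inner_def]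
  have h2 : ∫ a, ⟪(hf.toLp f) a, (hf.toLp f) a⟫_ℂ = ((∫ x, ‖f x‖ ^ 2 : ℝ) : ℂ) := by
    rw [← integral_complex_ofReal]
    refine integral_congr_ae ?_
    filter_upwards [hf.coeFn_toLp] with x hx
    rw [hx, inner_self_eq_norm_sq_to_K]
    simp
  rw [h2, Complex.ofReal_re]

theorem norm_jN_sq {N : ℕ} (Ψ : ElectronState N) : ‖jN N (toFS Ψ)‖ ^ 2 = normSq Ψ := by
  have h : jN N (toFS Ψ) = am (amb Ψ) := rfl
  rw [h, norm_am_sq]
  unfold normSq
  refine Finset.sum_congr rfl fun s _ => ?_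
  rw [amb_none]
  exact norm_toLp_sq (Ψ.amp_memLp s)

theorem inner_jN {N : ℕ} (Φ Ψ : ElectronState N) :
    ⟪jN N (toFS Φ), jN N (toFS Ψ)⟫_ℂ = inn Φ Ψ := by
  rw [PiLp.inner_apply]
  unfold inn
  refine Finset.sum_congr rfl fun s _ => ?_
  rw [L2.inner_def]
  refine integral_congr_ae ?_
  filter_upwards [amb_none_ae Φ s, amb_none_ae Ψ s] with x h1 h2
  have e1 : (jN N (toFS Φ) s) x = Φ.amp s x := h1
  have e2 : (jN N (toFS Ψ) s) x = Ψ.amp s x := h2
  rw [e1, e2]
  simp [mul_comm]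

theorem distSq_eq {N : ℕ} (Φ Ψ : ElectronState N) :
    distSq Φ Ψ = ‖jN N (toFS Φ - toFS Ψ)‖ ^ 2 := by
  have h : jN N (toFS Φ - toFS Ψ) = am (amb Φ - amb Ψ) := rfl
  rw [h, norm_am_sq]
  unfold distSq
  refine Finset.sum_congr rfl fun s _ => ?_
  have h1 : (amb Φ - amb Ψ) (s, none) = ((Φ.amp_memLp s).sub (Ψ.amp_memLp s)).toLp
      (Φ.amp s - Ψ.amp s) :=
    (MemLp.toLp_sub (Φ.amp_memLp s) (Ψ.amp_memLp s)).symm
  rw [h1, norm_toLp_sq]
  rfl

theorem normSq_ofFS {N : ℕ} (u : FS N) : normSq (ofFS u) = ‖jN N u‖ ^ 2 := by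
  rw [← norm_jN_sq, toFS_ofFS]

/-- Link of the minimisation problems. -/
theorem isGroundState_of_isMin {N : ℕ} {w : Conf N → ℝ} {B : SForm (FS N)}
    (h : ∀ Ψ, energy w Ψ = qd B (toFS Ψ)) {x : FS N} (hx : IsMin (jN N) B x) :
    IsGroundState w (ofFS x) := by
  refine ⟨?_, fun Φ hΦ => ?_⟩
  · rw [normSq_ofFS, hx.1]; norm_num
  · rw [h, h, toFS_ofFS]
    have := hx.2 (toFS Φ)
    rw [norm_jN_sq, hΦ, mul_one] at this
    exact this

end

end Vale.Agent.P363.R.B4
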