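import Vale.Agent.P363.R.B4.Main
import Vale.Agent.P363.H868.Dyson
import Vale.Agent.P363.H868.Sym

/-! B4: the facts on Dyson amplitudes. -/

namespace Vale.Agent.P363.R.B4

open Filter Topology MeasureTheory
open Vale.Agent.P363.Stmt Vale.Agent.P363.R.Top
open Vale.Agent.P363.H382 (FS LS Spn toFS ofFS toFS_ofFS amb_none_ae)
open scoped ComplexConjugate InnerProductSpace

noncomputable section

theorem dysHyp : DysHyp where
  mem := fun Φ Ψ σ => H868.memLp_dyson Φ Ψ σ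
  lip := fun Φ Φ' Ψ Ψ' σ => H868.integral_dyson_sub_le Φ Φ' Ψ Ψ' σ
  congr := fun Φ Φ' Ψ Ψ' σ h h' => H868.dyson_congr h h' σ
  sum := by
    intro Φ ι _ a y σ
    refine H868.dyson_sum_ae Φ (ofFS (∑ i, a i • y i)) a (fun i => ofFS (y i)) ?_ σ
    refine (H868.toFS_eq_sum_iff (ofFS (∑ i, a i • y i)) a (fun i => ofFS (y i))).1 ?_
    rw [toFS_ofFS]
    exact Finset.sum_congr rfl fun i _ => by rw [toFS_ofFS]

end

end Vale.Agent.P363.R.B4
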