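import Vale.Agent.P363.R.B4.Main
import Vale.Agent.P363.R.B4.Dys
import Vale.Agent.P363.R2.h518.HypInst
import Vale.Agent.P363.H868.SymInst
import Vale.Agent.P363.H979.CI.Value4
import Vale.Agent.P363.H761.Inst

/-! B4: the perturbative description of the atom, final form. -/

namespace Vale.Agent.P363.R.B4

open Filter Topology MeasureTheory
open Vale.Agent.P363.Stmt Vale.Agent.P363.H382 Vale.Agent.P363.R.Top Vale.Agent.P363.H868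
open Vale.Agent.P363.R.H10

noncomputable section

theorem b4_final
    (dens5 : ∀ᵐ x, density (ofFS (H518.e5 (2, 0))) x = n0 H761.al5 H761.be5 x)
    (dys45 : ∀ᵐ x, dyson (ofFS (H518.e4 ())) (ofFS (H518.e5 (2, 0))) 0 x =
      ((H761.kap * orb 4 x : ℝ) : ℂ)) :
    ∃ (α β κ : ℝ) (Ψ0 : ElectronState 5), 0 < α ∧ α < 2 ∧ 0 < β ∧ β < 2 ∧ α + 2 * β = 2 ∧
    0 < κ ∧ IsGroundState (pot 0) Ψ0 ∧ energy (pot 0) Ψ0 = -11 / 8 ∧ (∀ᵐ x, density Ψ0 x = n0 α β x) ∧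
    ∀ ε > 0, ∃ lam0 > 0, ∀ lam, 0 < lam → lam < lam0 →
      ∃ (Φ : ElectronState 4) (Ψ : ElectronState 5), AtomPair κ lam ε Φ Ψ ∧ distSq Ψ Ψ0 ≤ ε ∧
        energy (pot 0) Ψ ≤ -11 / 8 + ε :=
  b4_of (H518.hyp4 (H979.CI.WF_C4 table_eri))
    (H518.hyp5 fun i => H979.CI.WF_C5 table_eri _ (H518.two_le_succ_succ _) _)
    H868.symHyp B4.dysHyp H761.al5_pos H761.al5_lt H761.be5_pos H761.be5_lt H761.al5_be5 H761.kap_pos
    dens5 dys45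

/-- **B4**, unconditional. -/
theorem b4 : ∃ (α β κ : ℝ) (Ψ0 : ElectronState 5),
    0 < α ∧ α < 2 ∧ 0 < β ∧ β < 2 ∧ α + 2 * β = 2 ∧
    0 < κ ∧ IsGroundState (pot 0) Ψ0 ∧ energy (pot 0) Ψ0 = -11 / 8 ∧ (∀ᵐ x, density Ψ0 x = n0 α β x) ∧
    ∀ ε > 0, ∃ lam0 > 0, ∀ lam, 0 < lam → lam < lam0 →
      ∃ (Φ : ElectronState 4) (Ψ : ElectronState 5), AtomPair κ lam ε Φ Ψ ∧ distSq Ψ Ψ0 ≤ ε ∧
        energy (pot 0) Ψ ≤ -11 / 8 + ε :=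
  b4_final H761.dens5 H761.dys45

end

end Vale.Agent.P363.R.B4
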