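import Vale.Agent.P363.R.B4.Abs

/-! B4a, part 2: quantitative degenerate perturbation theory. -/

namespace Vale.Agent.P363.R.B4

open Filter Topology
open scoped ComplexConjugate InnerProductSpace

noncomputable section

variable {V H : Type*} [NormedAddCommGroup V] [InnerProductSpace ℂ V]
  [NormedAddCommGroup H] [InnerProductSpace ℂ H]

/-- Unperturbed data: `P` is the ground space of `A` (energy `E0`), the rest is above `E0 + g`. -/
structure PT (J : V →L[ℂ] H) (A W : SForm V) (P : Submodule ℂ V) (E0 g c C : ℝ) : Prop where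
  hA : Herm A
  hW : Herm W
  Wpos : ∀ x, 0 ≤ qd W x
  hc : 0 < c
  hg : 0 < g
  coer : ∀ x, c * ‖x‖ ^ 2 ≤ qd A x + C * ‖J x‖ ^ 2
  eig : ∀ p ∈ P, ∀ x, A p x = (E0 : ℂ) * ⟪J p, J x⟫_ℂ
  gap : ∀ x, (∀ p ∈ P, ⟪J p, J x⟫_ℂ = 0) → (E0 + g) * ‖J x‖ ^ 2 ≤ qd A x

/-- First order data: `V0 ≤ P` is the lowest eigenspace of `W` compressed to `P`. -/
structure PT0 (J : V →L[ℂ] H) (W : SForm V) (P V0 : Submodule ℂ V) (w0 g1 : ℝ) : Prop where
  hw0 : 0 ≤ w0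
  hg1 : 0 < g1
  le : V0 ≤ P
  on : ∀ v ∈ V0, ∀ p ∈ P, W v p = (w0 : ℂ) * ⟪J v, J p⟫_ℂ
  gap : ∀ p ∈ P, (∀ v ∈ V0, ⟪J v, J p⟫_ℂ = 0) → (w0 + g1) * ‖J p‖ ^ 2 ≤ qd W p

theorem norm_J_add_sq {J : V →L[ℂ] H} {p q : V} (h : ⟪J p, J q⟫_ℂ = 0) :
    ‖J (p + q)‖ ^ 2 = ‖J p‖ ^ 2 + ‖J q‖ ^ 2 := by
  have h1 := qd_add (herm_jForm J) p q
  rw [qd_jForm, qd_jForm, qd_jForm, jForm_apply, h] at h1
  simpa using h1

/-- orthogonal decomposition with respect to a finite dimensional subspace. -/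
theorem exists_decomp (J : V →L[ℂ] H) (P : Submodule ℂ V) [FiniteDimensional ℂ P] (x : V) :
    ∃ p ∈ P, ∃ q, x = p + q ∧ ∀ p' ∈ P, ⟪J p', J q⟫_ℂ = 0 := by
  set K : Submodule ℂ H := P.map (J : V →ₗ[ℂ] H) with hK
  have hmem : (K.starProjection (J x)) ∈ K := K.starProjection_apply_mem (J x)
  obtain ⟨p, hp, hpx⟩ := hmem
  refine ⟨p, hp, x - p, by abel, fun p' hp' => ?_⟩
  have h1 : J x - K.starProjection (J x) ∈ Kᗮ := K.sub_starProjection_mem_orthogonal (J x)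
  have h2 : J p' ∈ K := ⟨p', hp', rfl⟩
  have h3 := (Submodule.mem_orthogonal K _).1 h1 (J p') h2
  have h4 : J (x - p) = J x - K.starProjection (J x) := by
    rw [map_sub]
    congr 1
  rw [h4]
  exact h3

variable {J : V →L[ℂ] H} {A W : SForm V} {P V0 : Submodule ℂ V} {E0 g c C w0 g1 : ℝ}

theorem PT.qd_eig (h : PT J A W P E0 g c C) {p : V} (hp : p ∈ P) : qd A p = E0 * ‖J p‖ ^ 2 := by
  rw [qd, h.eig p hp p, Complex.re_ofReal_mul]
  congr 1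
  exact (norm_sq_eq_re_inner (𝕜 := ℂ) (J p)).symm

theorem PT.qd_add (h : PT J A W P E0 g c C) {p q : V} (hp : p ∈ P)
    (hq : ∀ p' ∈ P, ⟪J p', J q⟫_ℂ = 0) : qd A (p + q) = E0 * ‖J p‖ ^ 2 + qd A q := by
  rw [B4.qd_add h.hA, h.eig p hp q, hq p hp, h.qd_eig hp]
  simp

theorem PT.lower (h : PT J A W P E0 g c C) {p q : V} (hp : p ∈ P)
    (hq : ∀ p' ∈ P, ⟪J p', J q⟫_ℂ = 0) :
    E0 * ‖J (p + q)‖ ^ 2 + g * ‖J q‖ ^ 2 ≤ qd A (p + q) := by
  rw [h.qd_add hp hq, norm_J_add_sq (hq p hp)]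
  have := h.gap q hq
  linarith

theorem PT.lower' (h : PT J A W P E0 g c C) [FiniteDimensional ℂ P] (x : V) :
    E0 * ‖J x‖ ^ 2 ≤ qd A x := by
  obtain ⟨p, hp, q, rfl, hq⟩ := exists_decomp J P x
  have := h.lower hp hq
  have h2 : 0 ≤ g * ‖J q‖ ^ 2 := mul_nonneg h.hg.le (by positivity)
  linarith

/-- control of the component off `P`. -/
theorem PT.control (h : PT J A W P E0 g c C) {p q : V} {t : ℝ} (hp : p ∈ P)
    (hq : ∀ p' ∈ P, ⟪J p', J q⟫_ℂ = 0) (hn : ‖J (p + q)‖ = 1)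
    (ht : qd A (p + q) ≤ E0 + t) :
    ‖J q‖ ^ 2 ≤ t / g ∧ c * ‖q‖ ^ 2 ≤ t * (1 + |E0 + C| / g) ∧ c * ‖p‖ ^ 2 ≤ |E0 + C| := by
  have hlow := h.lower hp hq
  rw [hn] at hlow
  have h1 : g * ‖J q‖ ^ 2 ≤ t := by linarith
  have h1' : ‖J q‖ ^ 2 ≤ t / g := by
    rw [le_div_iff₀ h.hg]; linarith
  refine ⟨h1', ?_, ?_⟩
  · have h2 := h.qd_add hp hq
    have h3 := norm_J_add_sq (hq p hp)
    rw [hn] at h3
    have h4 := h.coer q
    have h5 : qd A q = qd A (p + q) - E0 * (1 - ‖J q‖ ^ 2) := by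
      have h8 : ‖J p‖ ^ 2 = 1 - ‖J q‖ ^ 2 := by linarith
      rw [h2, h8]; ring
    have h6 : (E0 + C) * ‖J q‖ ^ 2 ≤ |E0 + C| * (t / g) :=
      (mul_le_mul_of_nonneg_right (le_abs_self _) (by positivity)).trans
        (mul_le_mul_of_nonneg_left h1' (abs_nonneg _))
    have h7 : t * (1 + |E0 + C| / g) = t + |E0 + C| * (t / g) := by ring
    rw [h7]
    nlinarith
  · have h2 := h.coer p
    rw [h.qd_eig hp] at h2
    have h3 := norm_J_add_sq (hq p hp)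
    rw [hn] at h3
    have h4 : ‖J p‖ ^ 2 ≤ 1 := by nlinarith [sq_nonneg ‖J q‖]
    have h5 : (E0 + C) * ‖J p‖ ^ 2 ≤ |E0 + C| * 1 :=
      (mul_le_mul_of_nonneg_right (le_abs_self _) (by positivity)).trans
        (mul_le_mul_of_nonneg_left h4 (abs_nonneg _))
    linarith

/-- `W` on a vector of `P` -/
theorem PT0.lower (h0 : PT0 J W P V0 w0 g1) (hW : Herm W) {v r : V} (hv : v ∈ V0) (hr : r ∈ P)
    (ho : ∀ v' ∈ V0, ⟪J v', J r⟫_ℂ = 0) :
    w0 * ‖J (v + r)‖ ^ 2 + g1 * ‖J r‖ ^ 2 ≤ qd W (v + r) := by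
  have h1 : qd W v = w0 * ‖J v‖ ^ 2 := by
    rw [qd, h0.on v hv v (h0.le hv), Complex.re_ofReal_mul]
    congr 1
    exact (norm_sq_eq_re_inner (𝕜 := ℂ) (J v)).symm
  rw [B4.qd_add hW, h0.on v hv r hr, ho v hv, norm_J_add_sq (ho v hv), h1]
  have := h0.gap r hr ho
  simp only [mul_zero, Complex.zero_re, add_zero]
  linarith

theorem PT0.qd_on (h0 : PT0 J W P V0 w0 g1) {v : V} (hv : v ∈ V0) :
    qd W v = w0 * ‖J v‖ ^ 2 := by
  rw [qd, h0.on v hv v (h0.le hv), Complex.re_ofReal_mul]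
  congr 1
  exact (norm_sq_eq_re_inner (𝕜 := ℂ) (J v)).symm

/-- **Quantitative closeness.** States of energy at most `E0 + lam w1` are close to `V0`. -/
theorem pt_close (h : PT J A W P E0 g c C) (h0 : PT0 J W P V0 w0 g1)
    [FiniteDimensional ℂ P] [FiniteDimensional ℂ V0] (w1 : ℝ) (hw1 : 0 ≤ w1) :
    ∃ K : ℝ, 0 ≤ K ∧ ∀ lam : ℝ, 0 < lam → lam ≤ 1 → ∀ x : V, ‖J x‖ = 1 →
      qd A x + lam * qd W x ≤ E0 + lam * w1 →
      ∃ v ∈ V0, ∃ r, x = v + r ∧ (∀ v' ∈ V0, ⟪J v', J r⟫_ℂ = 0) ∧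
        ‖J r‖ ^ 2 ≤ (w1 - w0) / g1 + K * Real.sqrt lam := by
  set K1 : ℝ := (w1 * (1 + |E0 + C| / g)) / c with hK1
  set K2 : ℝ := |E0 + C| / c with hK2
  have hg := h.hg
  have hc := h.hc
  have hg1 := h0.hg1
  have hw0 := h0.hw0
  have hK1' : 0 ≤ K1 := by positivity
  have hK2' : 0 ≤ K2 := by positivity
  set M : ℝ := 2 * ‖W‖ * (Real.sqrt K2 * Real.sqrt K1) with hM
  have hM' : 0 ≤ M := by positivity
  refine ⟨(w0 * w1 / g + M) / g1 + w1 / g, by positivity, ?_⟩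
  intro lam hl hl1 x hx hE
  obtain ⟨p, hp, q, rfl, hq⟩ := exists_decomp J P x
  have hAx := h.lower' (p + q)
  rw [hx] at hAx
  have hWx : qd W (p + q) ≤ w1 := by
    have : lam * qd W (p + q) ≤ lam * w1 := by linarith
    exact le_of_mul_le_mul_left this hl
  have hAx2 : qd A (p + q) ≤ E0 + lam * w1 := by
    have := mul_nonneg hl.le (h.Wpos (p + q))
    linarith
  obtain ⟨c1, c2, c3⟩ := h.control hp hq hx hAx2
  -- norms
  have hsl : 0 ≤ Real.sqrt lam := Real.sqrt_nonneg _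
  have hslsq : Real.sqrt lam ^ 2 = lam := Real.sq_sqrt hl.le
  have hqn : ‖q‖ ≤ Real.sqrt K1 * Real.sqrt lam := by
    rw [← Real.sqrt_mul hK1']
    apply Real.le_sqrt_of_sq_le
    rw [hK1, div_mul_eq_mul_div, le_div_iff₀ hc]
    nlinarith
  have hpn : ‖p‖ ≤ Real.sqrt K2 := by
    apply Real.le_sqrt_of_sq_le
    rw [hK2, le_div_iff₀ hc]
    linarith
  have hWp : qd W p ≤ w1 + M * Real.sqrt lam := by
    have e := B4.qd_add h.hW p q
    have e1 : |(W p q).re| ≤ ‖W‖ * (Real.sqrt K2 * (Real.sqrt K1 * Real.sqrt lam)) := by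
      refine (Complex.abs_re_le_norm _).trans ((norm_form_le W p q).trans ?_)
      rw [mul_assoc]
      refine mul_le_mul_of_nonneg_left ?_ (ContinuousLinearMap.opNorm_nonneg W)
      exact mul_le_mul hpn hqn (norm_nonneg _) (Real.sqrt_nonneg _)
    have e2 := h.Wpos q
    have e3 := (abs_le.1 e1).1
    have e4 : M * Real.sqrt lam = 2 * (‖W‖ * (Real.sqrt K2 * (Real.sqrt K1 * Real.sqrt lam))) := by
      rw [hM]; ring
    rw [e4]
    linarith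
  obtain ⟨v, hv, r, hpr, hr⟩ := exists_decomp J V0 p
  have hrP : r ∈ P := by
    have : r = p - v := by rw [hpr]; abel
    rw [this]
    exact P.sub_mem hp (h0.le hv)
  have hlow := h0.lower h.hW hv hrP hr
  rw [← hpr] at hlow
  have hJp : ‖J p‖ ^ 2 = 1 - ‖J q‖ ^ 2 := by
    have := norm_J_add_sq (hq p hp)
    rw [hx] at this
    linarith
  have hlsl : lam ≤ Real.sqrt lam := by
    have : Real.sqrt lam ≤ 1 := Real.sqrt_le_one.2 hl1
    nlinarith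
  have hJq : ‖J q‖ ^ 2 ≤ w1 / g * Real.sqrt lam := by
    refine c1.trans ?_
    rw [mul_comm lam w1, mul_div_assoc, mul_comm w1, mul_comm]
    have : lam / g * w1 ≤ Real.sqrt lam / g * w1 := by gcongr
    calc w1 * (lam / g) = lam / g * w1 := by ring
      _ ≤ Real.sqrt lam / g * w1 := this
      _ = w1 / g * Real.sqrt lam := by ring
  have hJr : ‖J r‖ ^ 2 ≤ ((w1 - w0) + (w0 * w1 / g + M) * Real.sqrt lam) / g1 := by
    rw [le_div_iff₀ hg1]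
    have : w0 * ‖J q‖ ^ 2 ≤ w0 * (w1 / g * Real.sqrt lam) := mul_le_mul_of_nonneg_left hJq hw0
    have e : w0 * (w1 / g * Real.sqrt lam) = w0 * w1 / g * Real.sqrt lam := by ring
    rw [hJp] at hlow
    nlinarith
  refine ⟨v, hv, r + q, by rw [hpr]; abel, ?_, ?_⟩
  · intro v' hv'
    rw [map_add, inner_add_right, hr v' hv', hq v' (h0.le hv'), add_zero]
  · have hrq : ⟪J r, J q⟫_ℂ = 0 := hq r hrP
    rw [norm_J_add_sq hrq]
    have : ((w1 - w0) + (w0 * w1 / g + M) * Real.sqrt lam) / g1 =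
      (w1 - w0) / g1 + (w0 * w1 / g + M) / g1 * Real.sqrt lam := by ring
    rw [this] at hJr
    linarith

end

end Vale.Agent.P363.R.B4
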